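import Vale.Agent.P186.Hyp.Cut

/-! # P186, block HYP: the Cayley graph of a generating set is connected (helper615) -/

namespace Vale.Agent.P186.Hyp

/-- every vertex is joined to its right translates by elements of the closure -/
theorem reach_mul {G : Type*} [Group G] (S : Set G) (g : G) (hg : g ∈ Subgroup.closure S) :
    ∀ u : G, (SimpleGraph.mulCayley S).Reachable u (u * g) := by
  induction hg using Subgroup.closure_induction with
  | mem x hx =>
    intro u
    by_cases h : u = u * x
    · rw [← h]
    · exact SimpleGraph.Adj.reachable ((SimpleGraph.mulCayley_adj' S u (u * x)).2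
        ⟨h, x, hx, Or.inl rfl⟩)
  | one => intro u; rw [mul_one]
  | mul x y _ _ hx hy =>
    intro u
    rw [← mul_assoc]
    exact (hx u).trans (hy (u * x))
  | inv x _ hx =>
    intro u
    have h := hx (u * x⁻¹)
    rw [inv_mul_cancel_right] at h
    exact h.symm

theorem conn : ConnStmt := by
  intro G _ S hS
  refine (SimpleGraph.connected_iff _).2 ⟨fun u v => ?_, ⟨1⟩⟩
  have h := reach_mul S (u⁻¹ * v) (by rw [hS]; trivial) u
  rwa [mul_inv_cancel_left] at h

end Vale.Agent.P186.Hyp
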