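import Mathlib.Combinatorics.SimpleGraph.Metric
import Mathlib.Tactic
import Vale.Agent.P186.Defs

/-!
P186, block HYP, graph part: a graph in which all closed walks satisfy the linear Stokes inequality
has thin geodesic triangles.
-/

namespace Vale.Agent.P186.HypG

open SimpleGraph

universe u

variable {V : Type u} {Γ : SimpleGraph V}

/-- Stokes sum `∑ (f + f') (g' - g)` along a walk. -/
def St (f g : V → ℤ) {x y : V} (w : Γ.Walk x y) : ℤ :=
  (w.darts.map (fun d => (f d.fst + f d.snd) * (g d.snd - g d.fst))).sum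

/-- The linear Stokes inequality for all closed walks. -/
def StokesIneq (Γ : SimpleGraph V) (C : ℕ) : Prop :=
  ∀ f g : V → ℤ, (∀ u v, Γ.Adj u v → |f u - f v| ≤ 1) → (∀ u v, Γ.Adj u v → |g u - g v| ≤ 1) →
    ∀ (x : V) (c : Γ.Walk x x), |St f g c| ≤ C * c.length

@[simp] theorem St_nil (f g : V → ℤ) (x : V) : St f g (Walk.nil : Γ.Walk x x) = 0 := by
  simp [St]

@[simp] theorem St_cons (f g : V → ℤ) {x y z : V} (h : Γ.Adj x y) (w : Γ.Walk y z) :
    St f g (Walk.cons h w) = (f x + f y) * (g y - g x) + St f g w := by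
  simp [St]

theorem St_append (f g : V → ℤ) {x y z : V} (w : Γ.Walk x y) (w' : Γ.Walk y z) :
    St f g (w.append w') = St f g w + St f g w' := by
  simp [St, Walk.darts_append]

theorem St_const (f g : V → ℤ) (m : ℤ) {x y : V} (w : Γ.Walk x y) (h : ∀ v ∈ w.support, f v = m) :
    St f g w = 2 * m * (g y - g x) := by
  induction w with
  | nil => simp
  | @cons a b c hab w ih =>
    rw [St_cons, ih (fun v hv => h v (by simp [hv])), h a (by simp), h b (by simp)]
    ring

theorem St_abs_le (f g : V → ℤ) (m : ℤ) (hm : 0 ≤ m) (hg : ∀ u v, Γ.Adj u v → |g u - g v| ≤ 1)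
    {x y : V} (w : Γ.Walk x y) (h : ∀ v ∈ w.support, 0 ≤ f v ∧ f v ≤ m) :
    |St f g w| ≤ 2 * m * w.length := by
  induction w with
  | nil => simp
  | @cons a b c hab w ih =>
    have ih' := ih (fun v hv => h v (by simp [hv]))
    have h1 := h a (by simp)
    have h2 := h b (by simp)
    have h3 := hg b a hab.symm
    rw [St_cons, Walk.length_cons]
    calc |(f a + f b) * (g b - g a) + St f g w| ≤ |(f a + f b) * (g b - g a)| + |St f g w| :=
          abs_add_le _ _
      _ ≤ 2 * m * 1 + 2 * m * w.length := by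
          gcongr
          rw [abs_mul]
          have h4 : |f a + f b| ≤ 2 * m := by rw [abs_le]; constructor <;> linarith
          exact mul_le_mul h4 h3 (abs_nonneg _) (by linarith)
      _ = 2 * m * ((w.length + 1 : ℕ) : ℤ) := by push_cast; ring

/-- bump function of a finite set of vertices -/
noncomputable def bump (Γ : SimpleGraph V) (m : ℕ) (s : List V) (x : V) : ℕ :=
  (s.map (fun y => m - Γ.dist x y)).foldr max 0

theorem le_bump (m : ℕ) (s : List V) (x y : V) (hy : y ∈ s) : m - Γ.dist x y ≤ bump Γ m s x := by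
  unfold bump
  induction s with
  | nil => simp at hy
  | cons a s ih =>
    simp only [List.map_cons, List.foldr_cons]
    rcases List.mem_cons.1 hy with rfl | h
    · exact le_max_left _ _
    · exact (ih h).trans (le_max_right _ _)

theorem bump_le (m : ℕ) (s : List V) (x : V) (k : ℕ) (h : ∀ y ∈ s, m - Γ.dist x y ≤ k) :
    bump Γ m s x ≤ k := by
  unfold bump
  induction s with
  | nil => simp
  | cons a s ih =>
    simp only [List.map_cons, List.foldr_cons]
    exact max_le (h a (by simp)) (ih (fun y hy => h y (by simp [hy])))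

theorem bump_lip (hc : Γ.Connected) (m : ℕ) (s : List V) (x x' : V) (h : Γ.Adj x x') :
    bump Γ m s x ≤ bump Γ m s x' + 1 := by
  apply bump_le
  intro y hy
  have h1 := le_bump (Γ := Γ) m s x' y hy
  have h2 : Γ.dist x' y ≤ Γ.dist x' x + Γ.dist x y := hc.dist_triangle
  have h3 : Γ.dist x' x = 1 := SimpleGraph.dist_eq_one_iff_adj.2 h.symm
  omega

/-- Rectangle lemma. -/
theorem rect {C : ℕ} (hc : Γ.Connected) (hS : StokesIneq Γ C) (m : ℕ) {u v u' v' : V}
    (s : Γ.Walk u v) (hs : s.length = Γ.dist u v) (t : Γ.Walk v v') (w : Γ.Walk v' u')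
    (t' : Γ.Walk u' u) (hw : ∀ a ∈ w.support, ∀ b ∈ s.support, m ≤ Γ.dist a b) :
    2 * m * s.length ≤ C * (s.length + t.length + w.length + t'.length) +
      2 * m * (t.length + t'.length) := by
  set f : V → ℤ := fun x => (bump Γ m s.support x : ℤ) with hf
  set g : V → ℤ := fun x => (Γ.dist u x : ℤ) with hg
  have hfl : ∀ a b, Γ.Adj a b → |f a - f b| ≤ 1 := by
    intro a b hab
    have h1 := bump_lip hc m s.support a b hab
    have h2 := bump_lip hc m s.support b a hab.symm
    rw [abs_le]
    simp only [hf]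
    constructor <;> omega
  have hgl : ∀ a b, Γ.Adj a b → |g a - g b| ≤ 1 := by
    intro a b hab
    have h1 : Γ.dist u a ≤ Γ.dist u b + Γ.dist b a := hc.dist_triangle
    have h2 : Γ.dist u b ≤ Γ.dist u a + Γ.dist a b := hc.dist_triangle
    have h3 : Γ.dist a b = 1 := SimpleGraph.dist_eq_one_iff_adj.2 hab
    have h4 : Γ.dist b a = 1 := SimpleGraph.dist_eq_one_iff_adj.2 hab.symm
    rw [abs_le]
    simp only [hg]
    constructor <;> omega
  have hfm : ∀ a, 0 ≤ f a ∧ f a ≤ m := by
    intro a
    refine ⟨by simp [hf], ?_⟩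
    simp only [hf]
    exact_mod_cast bump_le m s.support a m (fun y _ => Nat.sub_le _ _)
  have hfs : ∀ a ∈ s.support, f a = m := by
    intro a ha
    have h1 := le_bump (Γ := Γ) m s.support a a ha
    rw [SimpleGraph.dist_self] at h1
    have h2 := (hfm a).2
    simp only [hf] at h2 ⊢
    have h3 : m ≤ bump Γ m s.support a := by simpa using h1
    have h4 : (m : ℤ) ≤ (bump Γ m s.support a : ℤ) := by exact_mod_cast h3
    omega
  have hfw : ∀ a ∈ w.support, f a = 0 := by
    intro a ha
    have : bump Γ m s.support a ≤ 0 :=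
      bump_le m s.support a 0 (fun y hy => by have := hw a ha y hy; omega)
    simp only [hf]
    omega
  have hSt := hS f g hfl hgl u (s.append (t.append (w.append t')))
  rw [St_append, St_append, St_append, St_const f g m s hfs, St_const f g 0 w hfw] at hSt
  have hgv : g v - g u = s.length := by simp [hg, hs]
  rw [hgv] at hSt
  have h1 := St_abs_le f g m (by positivity) hgl t (fun a _ => hfm a)
  have h2 := St_abs_le f g m (by positivity) hgl t' (fun a _ => hfm a)
  have h3 := abs_le.1 h1
  have h4 := abs_le.1 h2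
  have h5 := abs_le.1 hSt
  simp only [Walk.length_append] at h5
  have h6 := h5.2
  zify
  push_cast at h6
  nlinarith [h3.1, h4.1, h6]


/-- pieces of geodesics -/
theorem piece (hc : Γ.Connected) {x y : V} (p : Γ.Walk x y) (hp : p.length = Γ.dist x y)
    (i j : ℕ) (hij : i ≤ j) (hj : j ≤ p.length) (a b : V) (ha : p.getVert i = a)
    (hb : p.getVert j = b) :
    ∃ s : Γ.Walk a b, s.length = j - i ∧ s.length = Γ.dist a b ∧
      ∀ v ∈ s.support, ∃ k, i ≤ k ∧ k ≤ j ∧ v = p.getVert k := by
  subst ha
  have hb' : (p.drop i).getVert (j - i) = b := by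
    rw [Walk.drop_getVert, ← hb]; congr 1; omega
  subst hb'
  have hl : ((p.drop i).take (j - i)).length = j - i := by
    rw [Walk.take_length, Walk.drop_length]; omega
  refine ⟨(p.drop i).take (j - i), hl, ?_, ?_⟩
  · apply le_antisymm _ (SimpleGraph.dist_le _)
    rw [hl]
    have h1 : Γ.dist x y ≤ Γ.dist x (p.getVert i) + Γ.dist (p.getVert i) y := hc.dist_triangle
    have h2 : Γ.dist (p.getVert i) y ≤ Γ.dist (p.getVert i) ((p.drop i).getVert (j - i)) +
        Γ.dist ((p.drop i).getVert (j - i)) y := hc.dist_triangle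
    have h3 : Γ.dist x (p.getVert i) ≤ i := by
      have := SimpleGraph.dist_le (p.take i)
      rw [Walk.take_length] at this
      exact this.trans (min_le_left _ _)
    have h4 : Γ.dist ((p.drop i).getVert (j - i)) y ≤ p.length - j := by
      have := SimpleGraph.dist_le ((p.drop i).drop (j - i))
      rw [Walk.drop_length, Walk.drop_length] at this
      omega
    omega
  · intro v hv
    obtain ⟨k, hk, hk'⟩ := Walk.mem_support_iff_exists_getVert.1 hv
    rw [hl] at hk'
    refine ⟨i + k, by omega, by omega, ?_⟩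
    rw [← hk, Walk.take_getVert, Walk.drop_getVert]
    congr 2
    omega

theorem far_short (hc : Γ.Connected) {a b c : V} (m : ℕ) (t : Γ.Walk a b) (ht : t.length ≤ 2 * m)
    (ha : 2 * m ≤ Γ.dist a c) (hb : 2 * m ≤ Γ.dist b c) (v : V) (hv : v ∈ t.support) :
    m ≤ Γ.dist v c := by
  obtain ⟨k, hk, hk'⟩ := Walk.mem_support_iff_exists_getVert.1 hv
  have h1 : Γ.dist a v ≤ k := by
    have := SimpleGraph.dist_le (t.take k)
    rw [Walk.take_length, hk] at this
    exact this.trans (min_le_left _ _)
  have h2 : Γ.dist v b ≤ t.length - k := by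
    have := SimpleGraph.dist_le (t.drop k)
    rw [Walk.drop_length, hk] at this
    exact this
  have h3 : Γ.dist a c ≤ Γ.dist a v + Γ.dist v c := hc.dist_triangle
  have h4 : Γ.dist b c ≤ Γ.dist b v + Γ.dist v c := hc.dist_triangle
  have h5 : Γ.dist b v = Γ.dist v b := SimpleGraph.dist_comm
  omega

theorem exists_greatest (P : ℕ → Prop) (h0 : P 0) (N : ℕ) :
    ∃ j ≤ N, P j ∧ ∀ k, j < k → k ≤ N → ¬ P k := by
  induction N with
  | zero => exact ⟨0, le_refl _, h0, fun k h1 h2 => by omega⟩
  | succ N ih =>
    by_cases h : P (N + 1)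
    · exact ⟨N + 1, le_refl _, h, fun k h1 h2 => by omega⟩
    · obtain ⟨j, hj, hPj, hk⟩ := ih
      refine ⟨j, by omega, hPj, fun k h1 h2 => ?_⟩
      rcases Nat.lt_or_ge N k with h3 | h3
      · have : k = N + 1 := by omega
        exact this ▸ h
      · exact hk k h1 h3

/-- The hexagon. -/
theorem hexagon {C : ℕ} (hc : Γ.Connected) (hS : StokesIneq Γ C) (m : ℕ) (hm : 4 * C + 1 ≤ m)
    {u1 u2 z v1 v2 : V} (a : Γ.Walk u1 u2) (ha : a.length = Γ.dist u1 u2)
    (b : Γ.Walk z v2) (hb : b.length = Γ.dist z v2) (g : Γ.Walk z v1) (hg : g.length = Γ.dist z v1)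
    (h1 : Γ.dist u1 v1 ≤ 2 * m) (h2 : Γ.dist u2 v2 ≤ 2 * m)
    (hab : ∀ s ∈ a.support, ∀ t ∈ b.support, 2 * m ≤ Γ.dist s t)
    (hag : ∀ s ∈ a.support, ∀ t ∈ g.support, 2 * m ≤ Γ.dist s t) :
    a.length ≤ 30 * m := by
  obtain ⟨j, hj, ⟨w1, hw1, hd⟩, hmax⟩ := exists_greatest
    (fun j => ∃ w ∈ g.support, Γ.dist (b.getVert j) w ≤ 2 * m)
    ⟨z, by simp, by simp⟩ b.length
  obtain ⟨l, hl, hl'⟩ := Walk.mem_support_iff_exists_getVert.1 hw1
  obtain ⟨b', hb'l, hb'd, hb's⟩ := piece hc b hb j b.length hj le_rfl (b.getVert j) v2 rfl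
    b.getVert_length
  obtain ⟨g', hg'l, hg'd, hg's⟩ := piece hc g hg l g.length hl' le_rfl w1 v1 hl g.getVert_length
  obtain ⟨t, ht⟩ := hc.exists_walk_length_eq_dist (b.getVert j) w1
  obtain ⟨s1, hs1⟩ := hc.exists_walk_length_eq_dist u1 v1
  obtain ⟨s2, hs2⟩ := hc.exists_walk_length_eq_dist u2 v2
  rw [← hs1] at h1
  rw [← hs2] at h2
  rw [← ht] at hd
  have hbs : ∀ v ∈ b'.support, v ∈ b.support := by
    intro v hv
    obtain ⟨k, hk1, hk2, rfl⟩ := hb's v hv
    exact b.getVert_mem_support k
  have hgs : ∀ v ∈ g'.support, v ∈ g.support := by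
    intro v hv
    obtain ⟨k, hk1, hk2, rfl⟩ := hg's v hv
    exact g.getVert_mem_support k
  have hbj : b.getVert j ∈ b.support := b.getVert_mem_support j
  have hv1 : v1 ∈ g.support := by simp
  have hv2 : v2 ∈ b.support := by simp
  have hu1 : u1 ∈ a.support := by simp
  have hu2 : u2 ∈ a.support := by simp
  -- distances between the sides `b'` and `g`
  have hbg : b'.length ≠ 0 → ∀ s ∈ b'.support, ∀ t ∈ g.support, 2 * m ≤ Γ.dist s t := by
    intro h0 s hs t0 ht0
    obtain ⟨k, hk1, hk2, rfl⟩ := hb's s hs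
    rcases Nat.lt_or_ge j k with h3 | h3
    · have := hmax k h3 hk2
      push Not at this
      exact (this t0 ht0).le
    · have hkj : k = j := by omega
      subst hkj
      have h4 := hmax (k + 1) (by omega) (by omega)
      push Not at h4
      have h5 := h4 t0 ht0
      have h6 : Γ.dist (b.getVert (k + 1)) t0 ≤
          Γ.dist (b.getVert (k + 1)) (b.getVert k) + Γ.dist (b.getVert k) t0 := hc.dist_triangle
      have h7 : Γ.dist (b.getVert (k + 1)) (b.getVert k) = 1 :=
        SimpleGraph.dist_eq_one_iff_adj.2 (b.adj_getVert_succ (by omega)).symm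
      omega
  -- case A
  have hA := rect hc hS m a ha s2 (b'.reverse.append (t.append g')) s1.reverse (by
    intro v hv s hs
    rw [Walk.mem_support_append_iff, Walk.mem_support_append_iff] at hv
    rcases hv with hv | hv | hv
    · rw [Walk.support_reverse, List.mem_reverse] at hv
      have := hab s hs v (hbs v hv)
      rw [SimpleGraph.dist_comm] at this
      omega
    · apply far_short hc m t (by omega) _ _ v hv
      · rw [SimpleGraph.dist_comm]; exact hab s hs _ hbj
      · rw [SimpleGraph.dist_comm]; exact hag s hs _ hw1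
    · have := hag s hs v (hgs v hv)
      rw [SimpleGraph.dist_comm] at this
      omega)
  simp only [Walk.length_append, Walk.length_reverse] at hA
  have hmpos : 0 < m := by omega
  by_cases h0 : b'.length = 0
  · -- degenerate case
    have h3 : Γ.dist w1 v1 ≤ Γ.dist w1 (b.getVert j) + Γ.dist (b.getVert j) v1 := hc.dist_triangle
    have h4 : b.getVert j = v2 := by
      have : Γ.dist (b.getVert j) v2 = 0 := by rw [← hb'd, h0]
      exact (hc.dist_eq_zero_iff).1 this
    have h5 : Γ.dist v2 v1 ≤ Γ.dist v2 u2 + Γ.dist u2 v1 := hc.dist_triangle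
    have h6 : Γ.dist u2 v1 ≤ Γ.dist u2 u1 + Γ.dist u1 v1 := hc.dist_triangle
    have h7 : Γ.dist w1 v2 = t.length := by rw [ht, h4, SimpleGraph.dist_comm]
    have h8 : Γ.dist v2 u2 = s2.length := by rw [hs2, SimpleGraph.dist_comm]
    have h9 : Γ.dist u2 u1 = a.length := by rw [ha, SimpleGraph.dist_comm]
    rw [h4] at h3
    have h10 : g'.length ≤ a.length + 6 * m := by omega
    by_contra hcon
    push Not at hcon
    have hC : 4 * C ≤ m := by omega
    have e1 : C * (a.length + s2.length + (b'.length + (t.length + g'.length)) + s1.length) ≤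
        C * (2 * a.length + 12 * m) := by
      apply Nat.mul_le_mul_left; omega
    have e2 : 4 * (C * (2 * a.length + 12 * m)) ≤ m * (2 * a.length + 12 * m) := by
      rw [← mul_assoc]; exact Nat.mul_le_mul_right _ hC
    have e3 : 2 * m * (s2.length + s1.length) ≤ 2 * m * (4 * m) := by
      apply Nat.mul_le_mul_left; omega
    have e4 : m * (30 * m) < m * a.length := Nat.mul_lt_mul_of_pos_left hcon hmpos
    have e6 : m * (2 * a.length + 12 * m) = 2 * (m * a.length) + 12 * (m * m) := by ring
    have e7 : m * (30 * m) = 30 * (m * m) := by ring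
    have e8 : 2 * m * (4 * m) = 8 * (m * m) := by ring
    have e9 : 2 * m * a.length = 2 * (m * a.length) := by ring
    have eA := hA.trans (Nat.add_le_add e1 e3)
    rw [e8, e9] at eA
    rw [e6] at e2
    rw [e7] at e4
    generalize C * (2 * a.length + 12 * m) = X at *
    generalize m * a.length = Y at *
    generalize m * m = Z at *
    omega
  · have hbg' := hbg h0
    -- case B
    have hB := rect hc hS m b' hb'd s2.reverse (a.reverse.append (s1.append g'.reverse)) t.reverse
      (by
        intro v hv s hs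
        rw [Walk.mem_support_append_iff, Walk.mem_support_append_iff] at hv
        rcases hv with hv | hv | hv
        · rw [Walk.support_reverse, List.mem_reverse] at hv
          have := hab v hv s (hbs s hs)
          omega
        · apply far_short hc m s1 (by omega) _ _ v hv
          · exact hab u1 hu1 s (hbs s hs)
          · rw [SimpleGraph.dist_comm]; exact hbg' s hs v1 hv1
        · rw [Walk.support_reverse, List.mem_reverse] at hv
          have := hbg' s hs v (hgs v hv)
          rw [SimpleGraph.dist_comm] at this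
          omega)
    -- case C
    have hCc := rect hc hS m g' hg'd s1.reverse (a.append (s2.append b'.reverse)) t
      (by
        intro v hv s hs
        rw [Walk.mem_support_append_iff, Walk.mem_support_append_iff] at hv
        rcases hv with hv | hv | hv
        · have := hag v hv s (hgs s hs)
          omega
        · apply far_short hc m s2 (by omega) _ _ v hv
          · exact hag u2 hu2 s (hgs s hs)
          · exact hbg' v2 (by simp) s (hgs s hs)
        · rw [Walk.support_reverse, List.mem_reverse] at hv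
          have := hbg' v hv s (hgs s hs)
          omega)
    simp only [Walk.length_append, Walk.length_reverse] at hB hCc
    by_contra hcon
    push Not at hcon
    have hC : 4 * C ≤ m := by omega
    set S := a.length + b'.length + g'.length with hSd
    have e1 : C * (a.length + s2.length + (b'.length + (t.length + g'.length)) + s1.length) ≤
        C * (S + 6 * m) := by
      apply Nat.mul_le_mul_left; omega
    have e1' : C * (b'.length + s2.length + (a.length + (s1.length + g'.length)) + t.length) ≤
        C * (S + 6 * m) := by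
      apply Nat.mul_le_mul_left; omega
    have e1'' : C * (g'.length + s1.length + (a.length + (s2.length + b'.length)) + t.length) ≤
        C * (S + 6 * m) := by
      apply Nat.mul_le_mul_left; omega
    have e2 : 4 * (C * (S + 6 * m)) ≤ m * (S + 6 * m) := by
      rw [← mul_assoc]; exact Nat.mul_le_mul_right _ hC
    have e3 : 2 * m * (s2.length + s1.length) ≤ 2 * m * (4 * m) := by
      apply Nat.mul_le_mul_left; omega
    have e3' : 2 * m * (s2.length + t.length) ≤ 2 * m * (4 * m) := by
      apply Nat.mul_le_mul_left; omega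
    have e3'' : 2 * m * (s1.length + t.length) ≤ 2 * m * (4 * m) := by
      apply Nat.mul_le_mul_left; omega
    have e4 : m * (30 * m) < m * S := Nat.mul_lt_mul_of_pos_left (by omega) hmpos
    have e5 : 2 * m * a.length + 2 * m * b'.length + 2 * m * g'.length = 2 * (m * S) := by
      rw [hSd]; ring
    have e6 : m * (S + 6 * m) = m * S + 6 * (m * m) := by ring
    have e7 : m * (30 * m) = 30 * (m * m) := by ring
    have e8 : 2 * m * (4 * m) = 8 * (m * m) := by ring
    have e9 : 0 < m * m := Nat.mul_pos hmpos hmpos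
    have eA := hA.trans (Nat.add_le_add e1 e3)
    have eB := hB.trans (Nat.add_le_add e1' e3')
    have eC := hCc.trans (Nat.add_le_add e1'' e3'')
    rw [e8] at eA eB eC
    rw [e6] at e2
    rw [e7] at e4
    generalize C * (S + 6 * m) = X at *
    generalize m * S = Y at *
    generalize m * m = Z at *
    omega

/-- **Graph part of HYP.** -/
theorem thin_of_stokes {C : ℕ} (hc : Γ.Connected) (hS : StokesIneq Γ C) :
    ∃ d : ℕ, ThinTriangles Γ d := by
  obtain ⟨m, hm⟩ : ∃ m, m = 4 * C + 1 := ⟨_, rfl⟩
  refine ⟨18 * m, ?_⟩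
  intro x y z p q r hp hq hr v hv
  by_contra hcon
  push Not at hcon
  obtain ⟨i0, hi0, hi0'⟩ := Walk.mem_support_iff_exists_getVert.1 hv
  subst hi0
  -- the set of the other two sides
  set B : V → Prop := fun w => w ∈ q.support ∨ w ∈ r.support with hB
  have hfar0 : ∀ w, B w → 18 * m < Γ.dist (p.getVert i0) w := hcon
  -- nearest near index below
  obtain ⟨i1, hi1, ⟨v1, hBv1, hv1⟩, hmax1⟩ := exists_greatest
    (fun i => ∃ w, B w ∧ Γ.dist (p.getVert i) w ≤ 2 * m)
    ⟨x, Or.inr (by simp), by simp⟩ i0
  obtain ⟨k2, hk2, ⟨v2, hBv2, hv2⟩, hmax2⟩ := exists_greatest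
    (fun k => ∃ w, B w ∧ Γ.dist (p.getVert (p.length - k)) w ≤ 2 * m)
    ⟨y, Or.inl (by simp), by simp⟩ (p.length - i0)
  have hgd : ∀ i j, i ≤ j → j ≤ p.length → Γ.dist (p.getVert i) (p.getVert j) = j - i := by
    intro i j hij hj
    obtain ⟨s, hs1, hs2, _⟩ := piece hc p hp i j hij hj _ _ rfl rfl
    omega
  set i2 := p.length - k2 with hi2
  have hi1' : 16 * m < i0 - i1 := by
    have h1 := hfar0 v1 hBv1
    have h2 : Γ.dist (p.getVert i0) v1 ≤ Γ.dist (p.getVert i0) (p.getVert i1) +
      Γ.dist (p.getVert i1) v1 := hc.dist_triangle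
    have h3 := hgd i1 i0 hi1 hi0'
    rw [SimpleGraph.dist_comm] at h3
    omega
  have hi2' : 16 * m < i2 - i0 := by
    have h1 := hfar0 v2 hBv2
    have h2 : Γ.dist (p.getVert i0) v2 ≤ Γ.dist (p.getVert i0) (p.getVert i2) +
      Γ.dist (p.getVert i2) v2 := hc.dist_triangle
    have h3 := hgd i0 i2 (by omega) (by omega)
    omega
  have hmpos : 0 < m := by omega
  -- all vertices between are far
  have hfar : ∀ i, i1 ≤ i → i ≤ i2 → ∀ w, B w → 2 * m ≤ Γ.dist (p.getVert i) w := by
    have hin : ∀ i, i1 < i → i < i2 → ∀ w, B w → 2 * m < Γ.dist (p.getVert i) w := by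
      intro i h1 h2 w hw
      by_contra hle
      push Not at hle
      rcases Nat.le_total i i0 with h3 | h3
      · exact hmax1 i h1 h3 ⟨w, hw, hle⟩
      · refine hmax2 (p.length - i) (by omega) (by omega) ⟨w, hw, ?_⟩
        rw [show p.length - (p.length - i) = i by omega]
        exact hle
    intro i h1 h2 w hw
    rcases Nat.lt_or_ge i1 i with h3 | h3
    · rcases Nat.lt_or_ge i i2 with h4 | h4
      · exact (hin i h3 h4 w hw).le
      · have hi : i = i2 := by omega
        have h5 := hin (i2 - 1) (by omega) (by omega) w hw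
        have h6 : Γ.dist (p.getVert (i2 - 1)) w ≤ Γ.dist (p.getVert (i2 - 1)) (p.getVert i2) +
          Γ.dist (p.getVert i2) w := hc.dist_triangle
        have h7 := hgd (i2 - 1) i2 (by omega) (by omega)
        rw [hi]
        omega
    · have hi : i = i1 := by omega
      have h5 := hin (i1 + 1) (by omega) (by omega) w hw
      have h6 : Γ.dist (p.getVert (i1 + 1)) w ≤ Γ.dist (p.getVert (i1 + 1)) (p.getVert i1) +
        Γ.dist (p.getVert i1) w := hc.dist_triangle
      have h7 := hgd i1 (i1 + 1) (by omega) (by omega)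
      rw [SimpleGraph.dist_comm] at h7
      rw [hi]
      omega
  obtain ⟨a, hal, had, has⟩ := piece hc p hp i1 i2 (by omega) (by omega) _ _ rfl rfl
  -- it is enough to find two geodesics in `B` from a common vertex
  have key : ∀ (c : V) (b : Γ.Walk c v2) (g : Γ.Walk c v1), b.length = Γ.dist c v2 →
      g.length = Γ.dist c v1 → (∀ w ∈ b.support, B w) → (∀ w ∈ g.support, B w) → False := by
    intro c b g hbl hgl hb hg
    have := hexagon hc hS m (by omega) a had b hbl g hgl hv1 hv2
      (fun s hs t ht => by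
        obtain ⟨k, hk1, hk2, rfl⟩ := has s hs
        exact hfar k hk1 hk2 t (hb t ht))
      (fun s hs t ht => by
        obtain ⟨k, hk1, hk2, rfl⟩ := has s hs
        exact hfar k hk1 hk2 t (hg t ht))
    omega
  -- geodesics inside one side
  have side : ∀ {c d : V} (w : Γ.Walk c d), w.length = Γ.dist c d → ∀ s t, s ∈ w.support →
      t ∈ w.support → ∃ e : Γ.Walk s t, e.length = Γ.dist s t ∧ ∀ v ∈ e.support, v ∈ w.support := by
    intro c d w hw s t hs ht
    obtain ⟨i, hi, hi'⟩ := Walk.mem_support_iff_exists_getVert.1 hs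
    obtain ⟨j, hj, hj'⟩ := Walk.mem_support_iff_exists_getVert.1 ht
    rcases Nat.le_total i j with hij | hij
    · obtain ⟨e, he1, he2, he3⟩ := piece hc w hw i j hij hj' s t hi hj
      refine ⟨e, he2, fun v hv => ?_⟩
      obtain ⟨k, _, _, rfl⟩ := he3 v hv
      exact w.getVert_mem_support k
    · obtain ⟨e, he1, he2, he3⟩ := piece hc w hw j i hij hi' t s hj hi
      refine ⟨e.reverse, by rw [Walk.length_reverse, he2, SimpleGraph.dist_comm], fun v hv => ?_⟩
      rw [Walk.support_reverse, List.mem_reverse] at hv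
      obtain ⟨k, _, _, rfl⟩ := he3 v hv
      exact w.getVert_mem_support k
  rcases hBv1 with h1 | h1 <;> rcases hBv2 with h2 | h2
  · obtain ⟨e, he, he'⟩ := side q hq v2 v1 h2 h1
    exact key v2 Walk.nil e (by simp) he (by simpa using Or.inl h2) (fun w hw => Or.inl (he' w hw))
  · obtain ⟨e, he, he'⟩ := side q hq z v1 (by simp) h1
    obtain ⟨e2, he2, he2'⟩ := side r hr z v2 (by simp) h2
    exact key z e2 e he2 he (fun w hw => Or.inr (he2' w hw)) (fun w hw => Or.inl (he' w hw))
  · obtain ⟨e, he, he'⟩ := side r hr z v1 (by simp) h1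
    obtain ⟨e2, he2, he2'⟩ := side q hq z v2 (by simp) h2
    exact key z e2 e he2 he (fun w hw => Or.inl (he2' w hw)) (fun w hw => Or.inr (he' w hw))
  · obtain ⟨e, he, he'⟩ := side r hr v2 v1 h2 h1
    exact key v2 Walk.nil e (by simp) he (by simpa using Or.inr h2) (fun w hw => Or.inr (he' w hw))

end Vale.Agent.P186.HypG
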