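import Vale.Agent.P186.Hyp.Cut
import Vale.Agent.P186.Hyp.ThinG

/-! # P186, block HYP: graph part (helper909) -/

namespace Vale.Agent.P186.Hyp

theorem graph : GraphStmt := fun _ _ _ hc hS =>
  HypG.thin_of_stokes hc (fun f g hf hg x c => hS f g hf hg x c)

end Vale.Agent.P186.Hyp
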