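import Mathlib

/-!
P186, block HYP, parts S1 and S2: a fat geodesic side costs area (Stokes for `f dg`).

`X` is a set with an integer valued metric `d` in which points are joined by geodesics (the vertex
set of a connected graph).  `Pth d f g x y n s` : there is a discrete path of `n` steps from `x` to
`y` along which the discrete line integral `∑ (f a + f b) (g b - g a)` is `s`.  `St d C` is the
Stokes form of a linear isoperimetric inequality: the line integral of a pair of `1`-Lipschitz
functions along every closed path of `n` steps is at most `C * (n + 1)`.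
-/

namespace Vale.Agent.P186.Hyp

section

variable {X : Type*}

/-- one step of the line integral of `f dg` (doubled) -/
def om (f g : X → ℤ) (x y : X) : ℤ := (f x + f y) * (g y - g x)

/-- discrete paths with their line integral -/
inductive Pth (d : X → X → ℕ) (f g : X → ℤ) : X → X → ℕ → ℤ → Prop
  | nil (x : X) : Pth d f g x x 0 0
  | cons (x x' y : X) (n : ℕ) (s : ℤ) : d x x' ≤ 1 → Pth d f g x' y n s →
      Pth d f g x y (n + 1) (om f g x x' + s)

/-- discrete walks all of whose vertices satisfy `Q` -/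
inductive Wk (d : X → X → ℕ) (Q : X → Prop) : X → X → ℕ → Prop
  | nil (x : X) : Q x → Wk d Q x x 0
  | cons (x x' y : X) (n : ℕ) : Q x → d x x' ≤ 1 → Wk d Q x' y n → Wk d Q x y (n + 1)

/-- discrete geodesics -/
def Geo (d : X → X → ℕ) (p : ℕ → X) (n : ℕ) : Prop := ∀ i j, i ≤ j → j ≤ n → d (p i) (p j) = j - i

/-- `1`-Lipschitz functions -/
def Lip (d : X → X → ℕ) (f : X → ℤ) : Prop := ∀ x y, d x y ≤ 1 → |f x - f y| ≤ 1

/-- Stokes form of the linear isoperimetric inequality -/
def St (d : X → X → ℕ) (C : ℕ) : Prop :=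
  ∀ f g : X → ℤ, Lip d f → Lip d g → ∀ x n s, Pth d f g x x n s → |s| ≤ C * (n + 1)

variable {d : X → X → ℕ} {f g : X → ℤ}

theorem Pth.append {x y z : X} {n m : ℕ} {s t : ℤ} (h : Pth d f g x y n s)
    (h' : Pth d f g y z m t) : Pth d f g x z (n + m) (s + t) := by
  induction h with
  | nil x => simpa using h'
  | cons x x' y n s hd _ ih =>
    have h1 := Pth.cons (f := f) (g := g) x x' z (n + m) (s + t) hd (ih h')
    have e1 : n + 1 + m = n + m + 1 := by omega
    have e2 : om f g x x' + s + t = om f g x x' + (s + t) := by ring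
    rw [e1, e2]
    exact h1

theorem Pth.single {x y : X} (h : d x y ≤ 1) : Pth d f g x y 1 (om f g x y) := by
  have := Pth.cons (f := f) (g := g) x y y 0 0 h (Pth.nil y)
  simpa using this

theorem Wk.append {Q : X → Prop} {x y z : X} {n m : ℕ} (h : Wk d Q x y n)
    (h' : Wk d Q y z m) : Wk d Q x z (n + m) := by
  induction h with
  | nil x _ => simpa using h'
  | cons x x' y n hq hd _ ih =>
    have h1 := Wk.cons (Q := Q) x x' z (n + m) hq hd (ih h')
    have e1 : n + 1 + m = n + m + 1 := by omega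
    rw [e1]
    exact h1

theorem Wk.head {Q : X → Prop} {x y : X} {n : ℕ} (h : Wk d Q x y n) : Q x := by
  cases h <;> assumption

theorem Wk.last {Q : X → Prop} {x y : X} {n : ℕ} (h : Wk d Q x y n) : Q y := by
  induction h with
  | nil x h => exact h
  | cons _ _ _ _ _ _ _ ih => exact ih

theorem Wk.mono {Q Q' : X → Prop} (hQ : ∀ x, Q x → Q' x) {x y : X} {n : ℕ} (h : Wk d Q x y n) :
    Wk d Q' x y n := by
  induction h with
  | nil x h => exact Wk.nil x (hQ x h)
  | cons x x' y n hq hd _ ih => exact Wk.cons x x' y n (hQ x hq) hd ih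

theorem Wk.symm (hs : ∀ x y, d x y = d y x) {Q : X → Prop} {x y : X} {n : ℕ}
    (h : Wk d Q x y n) : Wk d Q y x n := by
  induction h with
  | nil x h => exact Wk.nil x h
  | cons x x' y n hq hd hw ih =>
    have h1 : Wk d Q x' x 1 := by
      refine Wk.cons x' x x 0 hw.head ?_ (Wk.nil x hq)
      rw [hs]; exact hd
    exact ih.append h1

/-- a walk on which `f` vanishes has line integral zero -/
theorem Wk.toPth {Q : X → Prop} (hf : ∀ x, Q x → f x = 0) {x y : X} {n : ℕ}
    (h : Wk d Q x y n) : Pth d f g x y n 0 := by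
  induction h with
  | nil x _ => exact Pth.nil x
  | cons x x' y n hq hd hw ih =>
    have h1 := Pth.cons (f := f) (g := g) x x' y n 0 hd ih
    have e : om f g x x' + 0 = 0 := by
      unfold om
      rw [hf x hq, hf x' hw.head]
      simp
    rw [e] at h1
    exact h1

/-- pieces of a discrete geodesic as walks -/
theorem Geo.wk {p : ℕ → X} {n : ℕ} (hp : Geo d p n) {i : ℕ} (k : ℕ) (hk : i + k ≤ n) :
    Wk d (fun x => ∃ l, i ≤ l ∧ l ≤ i + k ∧ x = p l) (p i) (p (i + k)) k := by
  induction k with
  | zero => exact Wk.nil _ ⟨i, le_refl _, le_refl _, rfl⟩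
  | succ k ih =>
    have h1 := (ih (by omega)).mono (Q' := fun x => ∃ l, i ≤ l ∧ l ≤ i + (k + 1) ∧ x = p l)
      (fun x hx => by
        obtain ⟨l, h1, h2, h3⟩ := hx
        exact ⟨l, h1, by omega, h3⟩)
    have h2 : Wk d (fun x => ∃ l, i ≤ l ∧ l ≤ i + (k + 1) ∧ x = p l) (p (i + k))
        (p (i + (k + 1))) 1 := by
      refine Wk.cons _ _ _ 0 ⟨i + k, by omega, by omega, rfl⟩ ?_
        (Wk.nil _ ⟨i + (k + 1), by omega, le_refl _, rfl⟩)
      rw [hp (i + k) (i + (k + 1)) (by omega) hk]
      omega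
    exact h1.append h2

/-- the cut-off function: `ρ - d (x, {p a, ..., p b})`, truncated at `0` -/
def cut (d : X → X → ℕ) (p : ℕ → X) (a b ρ : ℕ) (x : X) : ℕ :=
  (Finset.Icc a b).sup (fun i => ρ - d x (p i))

theorem cut_lip (hs : ∀ x y, d x y = d y x) (ht : ∀ x y z, d x z ≤ d x y + d y z)
    (p : ℕ → X) (a b ρ : ℕ) : Lip d (fun x => (cut d p a b ρ x : ℤ)) := by
  have key : ∀ x y, d x y ≤ 1 → cut d p a b ρ x ≤ cut d p a b ρ y + 1 := by
    intro x y h
    unfold cut
    refine Finset.sup_le ?_
    intro i hi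
    have h1 : ρ - d y (p i) ≤ (Finset.Icc a b).sup (fun i => ρ - d y (p i)) :=
      Finset.le_sup (f := fun i => ρ - d y (p i)) hi
    have h2 := ht y x (p i)
    have h3 := hs x y
    omega
  intro x y h
  have h1 := key x y h
  have h2 := key y x (by rw [hs]; exact h)
  simp only
  rw [abs_le]
  constructor <;> omega

theorem dist_lip (hs : ∀ x y, d x y = d y x) (ht : ∀ x y z, d x z ≤ d x y + d y z)
    (u : X) : Lip d (fun x => (d u x : ℤ)) := by
  intro x y h
  have h1 := ht u x y
  have h2 := ht u y x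
  have h3 := hs x y
  simp only
  rw [abs_le]
  constructor <;> omega

/-- the line integral along a geodesic against the distance from its origin -/
theorem Geo.pth {p : ℕ → X} {n : ℕ} (hp : Geo d p n) (k : ℕ) (hk : k ≤ n) :
    Pth d f (fun x => (d (p 0) x : ℤ)) (p 0) (p k) k
      (∑ i ∈ Finset.range k, (f (p i) + f (p (i + 1)))) := by
  induction k with
  | zero => simpa using Pth.nil (p 0)
  | succ k ih =>
    have h1 := ih (by omega)
    have h2 : Pth d f (fun x => (d (p 0) x : ℤ)) (p k) (p (k + 1)) 1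
        (om f (fun x => (d (p 0) x : ℤ)) (p k) (p (k + 1))) := by
      refine Pth.single ?_
      rw [hp k (k + 1) (by omega) hk]
      omega
    have e : om f (fun x => (d (p 0) x : ℤ)) (p k) (p (k + 1)) = f (p k) + f (p (k + 1)) := by
      unfold om
      simp only
      rw [hp 0 k (by omega) (by omega), hp 0 (k + 1) (by omega) hk]
      push_cast
      simp
    rw [e] at h2
    rw [Finset.sum_range_succ]
    exact h1.append h2

/-- **(S2)** a geodesic side with a fat segment `[a, b]` costs area `ρ (b - a)` -/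
theorem fat_side (hs : ∀ x y, d x y = d y x) (h0 : ∀ x, d x x = 0)
    (ht : ∀ x y z, d x z ≤ d x y + d y z) {C : ℕ} (hSt : St d C) {p : ℕ → X} {L : ℕ}
    (hp : Geo d p L) {a b ρ P : ℕ} (hb : b ≤ L)
    (hγ : Wk d (fun x => ∀ i, a ≤ i → i ≤ b → ρ ≤ d x (p i)) (p L) (p 0) P) :
    2 * ρ * (b - a) ≤ C * (L + P + 1) := by
  set f : X → ℤ := fun x => (cut d p a b ρ x : ℤ) with hf
  have h1 := hp.pth (f := f) L le_rfl
  have h2 : Pth d f (fun x => (d (p 0) x : ℤ)) (p L) (p 0) P 0 := by
    refine hγ.toPth ?_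
    intro x hx
    have : cut d p a b ρ x = 0 := by
      unfold cut
      refine Nat.eq_zero_of_le_zero (Finset.sup_le ?_)
      intro i hi
      rw [Finset.mem_Icc] at hi
      have := hx i hi.1 hi.2
      omega
    simp [hf, this]
  have h3 := hSt f _ (cut_lip hs ht p a b ρ) (dist_lip hs ht (p 0)) (p 0) (L + P) _ (h1.append h2)
  have hmid : ∀ i, a ≤ i → i ≤ b → f (p i) ≥ ρ := by
    intro i hi1 hi2
    have : ρ ≤ cut d p a b ρ (p i) := by
      unfold cut
      have h4 : ρ - d (p i) (p i) ≤ (Finset.Icc a b).sup (fun j => ρ - d (p i) (p j)) :=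
        Finset.le_sup (f := fun j => ρ - d (p i) (p j)) (Finset.mem_Icc.mpr ⟨hi1, hi2⟩)
      rw [h0] at h4
      simpa using h4
    simp only [hf]
    exact_mod_cast this
  have hnn : ∀ x, 0 ≤ f x := by
    intro x
    simp [hf]
  have h5 : ((2 * ρ * (b - a) : ℕ) : ℤ) ≤
      ∑ i ∈ Finset.range L, (f (p i) + f (p (i + 1))) := by
    have h6 : ∑ i ∈ Finset.Ico a b, (2 * ρ : ℤ) ≤
        ∑ i ∈ Finset.Ico a b, (f (p i) + f (p (i + 1))) := by
      refine Finset.sum_le_sum ?_
      intro i hi
      rw [Finset.mem_Ico] at hi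
      have := hmid i hi.1 (by omega)
      have := hmid (i + 1) (by omega) (by omega)
      linarith
    have h7 : ∑ i ∈ Finset.Ico a b, (f (p i) + f (p (i + 1))) ≤
        ∑ i ∈ Finset.range L, (f (p i) + f (p (i + 1))) := by
      refine Finset.sum_le_sum_of_subset_of_nonneg ?_ ?_
      · intro i hi
        rw [Finset.mem_Ico] at hi
        rw [Finset.mem_range]
        omega
      · intro i _ _
        have := hnn (p i)
        have := hnn (p (i + 1))
        linarith
    rw [Finset.sum_const, Nat.card_Ico] at h6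
    have h8 : ((2 * ρ * (b - a) : ℕ) : ℤ) = (b - a) • (2 * ρ : ℤ) := by
      rw [nsmul_eq_mul]
      push_cast
      ring
    rw [h8]
    exact h6.trans h7
  have h9 : ((2 * ρ * (b - a) : ℕ) : ℤ) ≤ ((C * (L + P + 1) : ℕ) : ℤ) := by
    refine h5.trans ?_
    have := le_abs_self (∑ i ∈ Finset.range L, (f (p i) + f (p (i + 1))) + 0)
    push_cast at h3 ⊢
    linarith
  exact_mod_cast h9

end

end Vale.Agent.P186.Hyp
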