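import Vale.Agent.P186.Hyp.Defs
import Vale.Agent.P186.Hyp.Fat

/-!
P186, block HYP, part S1: the linear isoperimetric inequality in Stokes form, and `StokesStmt`.

For `1`-Lipschitz functions `f`, `g` on the presented group the line integral of `f dg` along a word
is invariant under free reduction, hence it is the sum of the integrals along the relators of an
expression, each of which is at most the square of the length of the relator.
-/

namespace Vale.Agent.P186.Hyp

/-! ## The word metric -/

section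

variable {G : Type*} [Group G] {S : Finset G}

theorem st_path (hS : Subgroup.closure (S : Set G) = ⊤) (x y : G) :
    PathLen S x y (wordDist S x y) := by
  have h : (x⁻¹ * y) ∈ Submonoid.closure ((S : Set G) ∪ (S : Set G)⁻¹) := by
    rw [← Subgroup.closure_toSubmonoid, hS]; trivial
  obtain ⟨l, hl, hp⟩ := Submonoid.exists_list_of_mem_closure h
  have hne : {n | PathLen S x y n}.Nonempty := by
    refine ⟨l.length, l, rfl, ?_, ?_⟩
    · intro z hz
      simpa using hl z hz
    · rw [hp]; group
  exact Nat.sInf_mem hne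

theorem st_le {x y : G} {n : ℕ} (h : PathLen S x y n) : wordDist S x y ≤ n := Nat.sInf_le h

theorem st_self (x : G) : wordDist S x x = 0 :=
  Nat.eq_zero_of_le_zero (st_le ⟨[], rfl, by simp, by simp⟩)

theorem st_symm_le (hS : Subgroup.closure (S : Set G) = ⊤) (x y : G) :
    wordDist S y x ≤ wordDist S x y := by
  obtain ⟨l, h1, h2, h3⟩ := st_path hS x y
  refine st_le ⟨(l.map (fun a => a⁻¹)).reverse, by simp [h1], ?_, ?_⟩
  · intro z hz
    rw [List.mem_reverse, List.mem_map] at hz
    obtain ⟨a, ha, rfl⟩ := hz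
    rw [inv_inv]
    exact (h2 a ha).symm
  · rw [← h3, ← List.prod_inv_reverse]
    simp

theorem st_symm (hS : Subgroup.closure (S : Set G) = ⊤) (x y : G) :
    wordDist S x y = wordDist S y x :=
  le_antisymm (st_symm_le hS y x) (st_symm_le hS x y)

theorem st_triangle (hS : Subgroup.closure (S : Set G) = ⊤) (x y z : G) :
    wordDist S x z ≤ wordDist S x y + wordDist S y z := by
  obtain ⟨l, h1, h2, h3⟩ := st_path hS x y
  obtain ⟨l', h1', h2', h3'⟩ := st_path hS y z
  refine st_le ⟨l ++ l', by simp [h1, h1'], ?_, ?_⟩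
  · intro a ha
    rw [List.mem_append] at ha
    rcases ha with ha | ha
    · exact h2 a ha
    · exact h2' a ha
  · rw [List.prod_append, ← mul_assoc, h3, h3']

end

/-! ## The line integral of words -/

section

variable {L : Type} {R : Set (FreeGroup L)}

/-- value of a word -/
def evl (R : Set (FreeGroup L)) (l : List (L × Bool)) : PresentedGroup R :=
  PresentedGroup.mk R (FreeGroup.mk l)

theorem evl_nil : evl R [] = 1 := by
  unfold evl
  rw [← FreeGroup.one_eq_mk, map_one]

theorem evl_append (l l' : List (L × Bool)) : evl R (l ++ l') = evl R l * evl R l' := by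
  unfold evl
  rw [← FreeGroup.mul_mk, map_mul]

/-- line integral along the word `l` read from `x` -/
def Jl (f g : PresentedGroup R → ℤ) : List (L × Bool) → PresentedGroup R → ℤ
  | [], _ => 0
  | a :: l, x => om f g x (x * evl R [a]) + Jl f g l (x * evl R [a])

theorem Jl_append (f g : PresentedGroup R → ℤ) (l l' : List (L × Bool)) (x : PresentedGroup R) :
    Jl f g (l ++ l') x = Jl f g l x + Jl f g l' (x * evl R l) := by
  induction l generalizing x with
  | nil => simp [Jl, evl_nil]
  | cons a l ih =>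
    have h : evl R (a :: l) = evl R [a] * evl R l := evl_append [a] l
    simp only [List.cons_append, Jl]
    rw [ih, h]
    rw [mul_assoc]
    ring

theorem om_antisymm {X : Type*} (f g : X → ℤ) (x y : X) : om f g x y + om f g y x = 0 := by
  unfold om; ring

theorem evl_inv (a : L) (b : Bool) : evl R [(a, b)] * evl R [(a, !b)] = 1 := by
  rw [← evl_append]
  unfold evl
  have : FreeGroup.mk ([(a, b)] ++ [(a, !b)]) = (1 : FreeGroup L) := by
    rw [FreeGroup.one_eq_mk]
    exact Quot.sound (FreeGroup.Red.Step.not (L₁ := []) (L₂ := []) (x := a) (b := b))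
  rw [this, map_one]

theorem Jl_step (f g : PresentedGroup R → ℤ) {l l' : List (L × Bool)}
    (h : FreeGroup.Red.Step l l') (x : PresentedGroup R) : Jl f g l x = Jl f g l' x := by
  cases h with
  | @not l1 l2 a b =>
    rw [Jl_append, Jl_append]
    congr 1
    simp only [Jl]
    rw [mul_assoc (x * evl R l1), evl_inv, mul_one]
    have h1 := om_antisymm f g (x * evl R l1) (x * evl R l1 * evl R [(a, b)])
    linarith

theorem Jl_congr (f g : PresentedGroup R → ℤ) {l l' : List (L × Bool)}
    (h : FreeGroup.mk l = FreeGroup.mk l') (x : PresentedGroup R) : Jl f g l x = Jl f g l' x := by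
  rw [FreeGroup.Red.exact] at h
  obtain ⟨m, h1, h2⟩ := h
  have key : ∀ l m : List (L × Bool), FreeGroup.Red l m → Jl f g l x = Jl f g m x := by
    intro l m h
    induction h with
    | refl => rfl
    | tail _ hs ih => rw [ih, Jl_step f g hs x]
  rw [key _ _ h1, key _ _ h2]

theorem evl_eq {l : List (L × Bool)} {u : FreeGroup L} (h : FreeGroup.mk l = u) :
    evl R l = PresentedGroup.mk R u := by rw [← h]; rfl

/-- the integral along a word and back vanishes -/
theorem Jl_inv (f g : PresentedGroup R → ℤ) {l l' : List (L × Bool)}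
    (h : FreeGroup.mk l' = (FreeGroup.mk l)⁻¹) (x : PresentedGroup R) :
    Jl f g l' (x * evl R l) = - Jl f g l x := by
  have h1 : FreeGroup.mk (l ++ l') = FreeGroup.mk [] := by
    rw [← FreeGroup.mul_mk, h, mul_inv_cancel, FreeGroup.one_eq_mk]
  have h2 := Jl_congr f g h1 x
  rw [Jl_append] at h2
  simp only [Jl] at h2
  linarith

/-- the line integral along a word of length `m` is close to the exact differential `2 c dg` -/
theorem Jl_near (f g : PresentedGroup R → ℤ)
    (hf : ∀ x a, |f x - f (x * evl R [a])| ≤ 1) (hg : ∀ x a, |g x - g (x * evl R [a])| ≤ 1)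
    (c : ℤ) (l : List (L × Bool)) (x : PresentedGroup R) (t : ℤ) (ht : |f x - c| ≤ t) :
    |Jl f g l x - 2 * c * (g (x * evl R l) - g x)| ≤ l.length * (2 * t + l.length) := by
  induction l generalizing x t with
  | nil => simp [Jl, evl_nil]
  | cons a l ih =>
    have h : evl R (a :: l) = evl R [a] * evl R l := evl_append [a] l
    have h1 : |f (x * evl R [a]) - c| ≤ t + 1 := by
      have := hf x a
      rw [abs_le] at this ht ⊢
      constructor <;> linarith [this.1, this.2, ht.1, ht.2]
    have h2 := ih (x * evl R [a]) (t + 1) h1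
    have h3 : |om f g x (x * evl R [a]) - 2 * c * (g (x * evl R [a]) - g x)| ≤ 2 * t + 1 := by
      have e : om f g x (x * evl R [a]) - 2 * c * (g (x * evl R [a]) - g x) =
          ((f x - c) + (f (x * evl R [a]) - c)) * (g (x * evl R [a]) - g x) := by
        unfold om; ring
      rw [e, abs_mul]
      have h4 : |(f x - c) + (f (x * evl R [a]) - c)| ≤ 2 * t + 1 :=
        (abs_add_le _ _).trans (by linarith)
      have h5 : |g (x * evl R [a]) - g x| ≤ 1 := by rw [abs_sub_comm]; exact hg x a
      have h6 : 0 ≤ 2 * t + 1 := (abs_nonneg _).trans h4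
      calc |(f x - c) + (f (x * evl R [a]) - c)| * |g (x * evl R [a]) - g x|
          ≤ (2 * t + 1) * 1 := mul_le_mul h4 h5 (abs_nonneg _) h6
        _ = 2 * t + 1 := by ring
    have e : Jl f g (a :: l) x - 2 * c * (g (x * evl R (a :: l)) - g x) =
        (om f g x (x * evl R [a]) - 2 * c * (g (x * evl R [a]) - g x)) +
        (Jl f g l (x * evl R [a]) -
          2 * c * (g (x * evl R [a] * evl R l) - g (x * evl R [a]))) := by
      rw [h, ← mul_assoc]
      simp only [Jl]
      ring
    rw [e]
    refine (abs_add_le _ _).trans ((add_le_add h3 h2).trans (le_of_eq ?_))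
    simp only [List.length_cons]
    push_cast
    ring

/-- bound for a closed word -/
theorem Jl_closed (f g : PresentedGroup R → ℤ)
    (hf : ∀ x a, |f x - f (x * evl R [a])| ≤ 1) (hg : ∀ x a, |g x - g (x * evl R [a])| ≤ 1)
    (l : List (L × Bool)) (hl : evl R l = 1) (x : PresentedGroup R) :
    |Jl f g l x| ≤ (l.length : ℤ) * l.length := by
  have := Jl_near f g hf hg (f x) l x 0 (by simp)
  rw [hl, mul_one, sub_self, mul_zero, sub_zero, mul_zero, zero_add] at this
  exact this

theorem Jl_area [DecidableEq L] (f g : PresentedGroup R → ℤ)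
    (hf : ∀ x a, |f x - f (x * evl R [a])| ≤ 1) (hg : ∀ x a, |g x - g (x * evl R [a])| ≤ 1)
    (B : ℤ) (hB : ∀ r ∈ R, ((r.toWord.length : ℤ) * r.toWord.length) ≤ B)
    {k : ℕ} {u : FreeGroup L} (h : Ar R k u) :
    ∀ l, FreeGroup.mk l = u → PresentedGroup.mk R u = 1 ∧ ∀ x, |Jl f g l x| ≤ k * B := by
  have hR : ∀ r ∈ R, PresentedGroup.mk R r = 1 := fun r hr =>
    (QuotientGroup.eq_one_iff r).mpr (Subgroup.subset_normalClosure hr)
  -- one conjugate of a word with value one
  have conj : ∀ (k : ℕ) (u v r : FreeGroup L) (lr : List (L × Bool)), FreeGroup.mk lr = r →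
      PresentedGroup.mk R r = 1 → (∀ y, |Jl f g lr y| ≤ B) →
      (∀ l, FreeGroup.mk l = u → PresentedGroup.mk R u = 1 ∧ ∀ x, |Jl f g l x| ≤ k * B) →
      ∀ l, FreeGroup.mk l = v * r * v⁻¹ * u →
        PresentedGroup.mk R (v * r * v⁻¹ * u) = 1 ∧ ∀ x, |Jl f g l x| ≤ (k + 1 : ℕ) * B := by
    intro k u v r lr hlr hr hb ih l hl
    obtain ⟨h1, h2⟩ := ih u.toWord FreeGroup.mk_toWord
    constructor
    · rw [map_mul, map_mul, map_mul, hr, h1, mul_one, mul_one, map_inv, mul_inv_cancel]
    · intro x
      have e : FreeGroup.mk l =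
          FreeGroup.mk (((v.toWord ++ lr) ++ (v⁻¹).toWord) ++ u.toWord) := by
        rw [← FreeGroup.mul_mk, ← FreeGroup.mul_mk, ← FreeGroup.mul_mk, FreeGroup.mk_toWord,
          FreeGroup.mk_toWord, FreeGroup.mk_toWord, hlr, hl]
      rw [Jl_congr f g e x, Jl_append, Jl_append, Jl_append]
      have e1 : evl R lr = 1 := by rw [evl_eq hlr, hr]
      have e2 : evl R (v.toWord ++ lr) = evl R v.toWord := by rw [evl_append, e1, mul_one]
      have e3 : Jl f g (v⁻¹).toWord (x * evl R v.toWord) = - Jl f g v.toWord x := by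
        refine Jl_inv f g ?_ x
        rw [FreeGroup.mk_toWord, FreeGroup.mk_toWord]
      rw [e2, e3]
      have h3 := hb (x * evl R v.toWord)
      have h4 := h2 (x * evl R (v.toWord ++ lr ++ (v⁻¹).toWord))
      rw [abs_le] at h3 h4 ⊢
      push_cast
      constructor <;> nlinarith [h3.1, h3.2, h4.1, h4.2]
  induction h with
  | nil =>
    intro l hl
    refine ⟨map_one _, fun x => ?_⟩
    have : Jl f g l x = 0 := by
      rw [Jl_congr f g (l' := []) (by rw [hl, FreeGroup.one_eq_mk]) x]
      rfl
    simp [this]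
  | cons k u v r hr _ ih =>
    refine conj k u v r r.toWord FreeGroup.mk_toWord (hR r hr) ?_ ih
    intro y
    refine (Jl_closed f g hf hg _ ?_ y).trans (hB r hr)
    rw [evl_eq FreeGroup.mk_toWord, hR r hr]
  | cons' k u v r hr _ ih =>
    refine conj k u v r⁻¹ (r⁻¹).toWord FreeGroup.mk_toWord (by rw [map_inv, hR r hr, inv_one]) ?_ ih
    intro y
    refine (Jl_closed f g hf hg _ ?_ y).trans ?_
    · rw [evl_eq FreeGroup.mk_toWord, map_inv, hR r hr, inv_one]
    · rw [FreeGroup.toWord_inv, FreeGroup.invRev_length]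
      exact hB r hr

/-- a step of the word metric is a letter or trivial -/
theorem step_letter [Fintype L] {x y : PresentedGroup R} (h : wordDist (gens R) x y ≤ 1) :
    x = y ∨ ∃ a : L × Bool, y = x * evl R [a] := by
  classical
  obtain ⟨l, h1, h2, h3⟩ := st_path (gens_closure R) x y
  have hl : l.length ≤ 1 := by omega
  match l, hl with
  | [], _ => left; simpa using h3
  | [z], _ =>
    right
    have hz := h2 z (by simp)
    have hg : ∀ z : PresentedGroup R, z ∈ gens R → ∃ a : L, z = evl R [(a, true)] := by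
      intro z hz
      unfold gens at hz
      rw [Finset.mem_image] at hz
      obtain ⟨a, _, rfl⟩ := hz
      exact ⟨a, rfl⟩
    have h3' : y = x * z := by simpa using h3.symm
    rcases hz with hz | hz
    · obtain ⟨a, ha⟩ := hg z hz
      exact ⟨(a, true), by rw [h3', ha]⟩
    · obtain ⟨a, ha⟩ := hg _ hz
      refine ⟨(a, false), ?_⟩
      have h4 := evl_inv (R := R) a true
      simp only [Bool.not_true] at h4
      have h5 : z = (z⁻¹)⁻¹ := (inv_inv z).symm
      rw [h3', h5, ha, inv_eq_of_mul_eq_one_right h4]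
  | _ :: _ :: _, hl => simp at hl

theorem letter_step [Fintype L] (x : PresentedGroup R) (a : L × Bool) :
    wordDist (gens R) x (x * evl R [a]) ≤ 1 := by
  classical
  refine st_le ⟨[evl R [a]], rfl, ?_, by simp⟩
  intro z hz
  rw [List.mem_singleton] at hz
  subst hz
  have hg : ∀ a : L, evl R [(a, true)] ∈ gens R := by
    intro a
    unfold gens
    rw [Finset.mem_image]
    exact ⟨a, Finset.mem_univ _, rfl⟩
  obtain ⟨a, b⟩ := a
  cases b
  · right
    have h4 := evl_inv (R := R) a false
    simp only [Bool.not_false] at h4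
    rw [inv_eq_of_mul_eq_one_right h4]
    exact hg a
  · left
    exact hg a

theorem Pth.word [Fintype L] {f g : PresentedGroup R → ℤ} {x y : PresentedGroup R} {n : ℕ} {s : ℤ}
    (h : Pth (wordDist (gens R)) f g x y n s) :
    ∃ l : List (L × Bool), l.length ≤ n ∧ y = x * evl R l ∧ Jl f g l x = s := by
  induction h with
  | nil x => exact ⟨[], le_rfl, by rw [evl_nil, mul_one], rfl⟩
  | cons x x' y n s hd _ ih =>
    obtain ⟨l, h1, h2, h3⟩ := ih
    rcases step_letter hd with rfl | ⟨a, rfl⟩
    · refine ⟨l, by omega, h2, ?_⟩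
      rw [h3]
      unfold om
      ring
    · refine ⟨a :: l, by simp [h1], ?_, ?_⟩
      · rw [h2]
        have h : evl R (a :: l) = evl R [a] * evl R l := evl_append [a] l
        rw [h, mul_assoc]
      · simp only [Jl]
        rw [h3]

/-- **(S1)** the linear isoperimetric inequality in Stokes form -/
theorem st_of_linear [Fintype L] (hR : R.Finite) (A : ℕ)
    (hA : ∀ u : List (L × Bool), PresentedGroup.mk R (FreeGroup.mk u) = 1 →
      ∃ k, k ≤ A * (u.length + 1) ∧ Ar R k (FreeGroup.mk u)) :
    ∃ C : ℕ, St (wordDist (gens R)) C := by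
  classical
  obtain ⟨B, hB⟩ : ∃ B : ℕ, ∀ r ∈ R, r.toWord.length * r.toWord.length ≤ B := by
    refine ⟨∑ r ∈ hR.toFinset, r.toWord.length * r.toWord.length, ?_⟩
    intro r hr
    exact Finset.single_le_sum (f := fun r : FreeGroup L => r.toWord.length * r.toWord.length)
      (fun _ _ => Nat.zero_le _) (hR.mem_toFinset.mpr hr)
  refine ⟨A * B, ?_⟩
  intro f g hf hg x n s h
  obtain ⟨l, h1, h2, h3⟩ := h.word
  have h4 : evl R l = 1 := by
    have : x * evl R l = x * 1 := by rw [← h2, mul_one]
    exact mul_left_cancel this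
  obtain ⟨k, hk, har⟩ := hA l h4
  have h5 := (Jl_area f g (fun x a => hf _ _ (letter_step x a)) (fun x a => hg _ _ (letter_step x a))
    (B : ℤ) (fun r hr => by exact_mod_cast hB r hr) har l rfl).2 x
  rw [h3] at h5
  refine h5.trans ?_
  have h6 : k * B ≤ A * B * (n + 1) := by
    calc k * B ≤ A * (l.length + 1) * B := Nat.mul_le_mul_right B hk
      _ ≤ A * (n + 1) * B := Nat.mul_le_mul_right B (Nat.mul_le_mul_left A (by omega))
      _ = A * B * (n + 1) := by ring
  exact_mod_cast h6

theorem wk_of_fun {X : Type*} {d : X → X → ℕ} {Q : X → Prop} (w : ℕ → X) (n : ℕ)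
    (hw : ∀ i < n, d (w i) (w (i + 1)) ≤ 1) (hQ : ∀ j ≤ n, Q (w j)) (k : ℕ) (hk : k ≤ n) :
    Wk d Q (w 0) (w k) k := by
  induction k with
  | zero => exact Wk.nil _ (hQ 0 (Nat.zero_le _))
  | succ k ih =>
    exact (ih (by omega)).append (Wk.cons _ _ _ 0 (hQ k (by omega)) (hw k (by omega))
      (Wk.nil _ (hQ (k + 1) hk)))

/-- **S1 + S2** -/
theorem stokes : StokesStmt := by
  intro L _ R hR A hA
  obtain ⟨C, hC⟩ := st_of_linear hR A hA
  refine ⟨C, ?_⟩
  intro x y a l ha w n hw0 hwn hw R₀ i₀ i₁ h01 h1l hfar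
  have hS := gens_closure R
  have h1 : Wk (wordDist (gens R)) (fun z => ∀ i, i₀ ≤ i → i ≤ i₁ → R₀ ≤ wordDist (gens R) z (a i))
      (w 0) (w n) n := by
    refine wk_of_fun w n hw ?_ n le_rfl
    intro j hj i hi1 hi2
    rw [st_symm hS]
    exact hfar i hi1 hi2 j hj
  rw [hw0, hwn, ← ha.start, ← ha.stop] at h1
  have h2 := fat_side (st_symm hS) st_self (st_triangle hS) hC (p := a) (L := l) ha.geod h1l h1
  refine le_trans ?_ h2
  have : R₀ * (i₁ - i₀) ≤ 2 * (R₀ * (i₁ - i₀)) := by omega
  calc R₀ * (i₁ - i₀) ≤ 2 * (R₀ * (i₁ - i₀)) := this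
    _ = 2 * R₀ * (i₁ - i₀) := by ring

end

end Vale.Agent.P186.Hyp
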