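import Vale.Agent.P186.Hyp.Cut
import Vale.Agent.P186.Hyp.Stokes

/-!
P186, block HYP, GROUP PART: a linear isoperimetric inequality for the presentation gives the
Stokes inequality for closed walks of the Cayley graph.
-/

namespace Vale.Agent.P186.Hyp

section

variable {L : Type} [Fintype L] {R : Set (FreeGroup L)}

/-- adjacent vertices of the Cayley graph differ by a letter -/
theorem adj_letter {x y : PresentedGroup R}
    (h : (SimpleGraph.mulCayley (gens R : Set (PresentedGroup R))).Adj x y) :
    ∃ a : L × Bool, y = x * evl R [a] := by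
  classical
  rw [SimpleGraph.mulCayley_adj'] at h
  obtain ⟨_, z, hz, h⟩ := h
  have hz' : ∃ a : L, z = evl R [(a, true)] := by
    rw [Finset.mem_coe] at hz
    unfold gens at hz
    rw [Finset.mem_image] at hz
    obtain ⟨a, _, rfl⟩ := hz
    exact ⟨a, rfl⟩
  obtain ⟨a, rfl⟩ := hz'
  rcases h with h | h
  · exact ⟨(a, true), h.symm⟩
  · refine ⟨(a, false), ?_⟩
    have h4 := evl_inv (R := R) a true
    simp only [Bool.not_true] at h4
    rw [h, mul_assoc, h4, mul_one]

/-- a letter is an edge or a loop -/
theorem letter_adj (x : PresentedGroup R) (a : L × Bool) : x = x * evl R [a] ∨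
    (SimpleGraph.mulCayley (gens R : Set (PresentedGroup R))).Adj x (x * evl R [a]) := by
  classical
  by_cases hx : x = x * evl R [a]
  · exact Or.inl hx
  right
  rw [SimpleGraph.mulCayley_adj']
  refine ⟨hx, ?_⟩
  have hg : ∀ a : L, evl R [(a, true)] ∈ (gens R : Set (PresentedGroup R)) := by
    intro a
    rw [Finset.mem_coe]
    unfold gens
    rw [Finset.mem_image]
    exact ⟨a, Finset.mem_univ _, rfl⟩
  obtain ⟨a, b⟩ := a
  cases b
  · refine ⟨evl R [(a, true)], hg a, Or.inr ?_⟩
    have h4 := evl_inv (R := R) a false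
    simp only [Bool.not_false] at h4
    rw [mul_assoc, h4, mul_one]
  · exact ⟨evl R [(a, true)], hg a, Or.inl rfl⟩

theorem walk_word (f g : PresentedGroup R → ℤ) {x y : PresentedGroup R}
    (c : (SimpleGraph.mulCayley (gens R : Set (PresentedGroup R))).Walk x y) :
    ∃ l : List (L × Bool), l.length = c.length ∧ y = x * evl R l ∧
      Jl f g l x = (c.darts.map (fun d => (f d.fst + f d.snd) * (g d.snd - g d.fst))).sum := by
  induction c with
  | nil => exact ⟨[], rfl, by rw [evl_nil, mul_one], by simp [Jl]⟩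
  | @cons x y z h c ih =>
    obtain ⟨l, h1, h2, h3⟩ := ih
    obtain ⟨a, ha⟩ := adj_letter h
    have he : evl R (a :: l) = evl R [a] * evl R l := evl_append [a] l
    refine ⟨a :: l, by simp [h1], ?_, ?_⟩
    · rw [he, ← mul_assoc, ← ha, ← h2]
    · simp only [Jl, SimpleGraph.Walk.darts_cons, List.map_cons, List.sum_cons]
      rw [← ha, h3]
      rfl

end

/-- **GROUP PART** -/
theorem lin : LinStmt := by
  classical
  intro L _ R hR A hA
  obtain ⟨B, hB⟩ : ∃ B : ℕ, ∀ r ∈ R, r.toWord.length * r.toWord.length ≤ B := by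
    refine ⟨∑ r ∈ hR.toFinset, r.toWord.length * r.toWord.length, ?_⟩
    intro r hr
    exact Finset.single_le_sum (f := fun r : FreeGroup L => r.toWord.length * r.toWord.length)
      (fun _ _ => Nat.zero_le _) (hR.mem_toFinset.mpr hr)
  refine ⟨2 * (A * B), ?_⟩
  intro f g hf hg x c
  obtain ⟨l, h1, h2, h3⟩ := walk_word f g c
  rw [← h3]
  have h4 : evl R l = 1 := by
    have : x * evl R l = x * 1 := by rw [← h2, mul_one]
    exact mul_left_cancel this
  have lipf : ∀ (f : PresentedGroup R → ℤ), (∀ u v, (SimpleGraph.mulCayley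
      (gens R : Set (PresentedGroup R))).Adj u v → |f u - f v| ≤ 1) →
      ∀ x a, |f x - f (x * evl R [a])| ≤ 1 := by
    intro f hf x a
    rcases letter_adj x a with h | h
    · rw [← h]; simp
    · exact hf _ _ h
  rcases Nat.eq_zero_or_pos l.length with h0 | hpos
  · have : l = [] := List.length_eq_zero_iff.mp h0
    subst this
    have h5 : Jl f g [] x = 0 := rfl
    rw [h5, abs_zero]
    positivity
  · obtain ⟨k, hk, har⟩ := hA l h4
    have h5 := (Jl_area f g (lipf f hf) (lipf g hg) (B : ℤ)
      (fun r hr => by exact_mod_cast hB r hr) har l rfl).2 x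
    refine h5.trans ?_
    have h6 : k * B ≤ 2 * (A * B) * c.length := by
      rw [← h1]
      calc k * B ≤ A * (l.length + 1) * B := Nat.mul_le_mul_right B hk
        _ ≤ A * (2 * l.length) * B := Nat.mul_le_mul_right B (Nat.mul_le_mul_left A (by omega))
        _ = 2 * (A * B) * l.length := by ring
    exact_mod_cast h6

end Vale.Agent.P186.Hyp
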