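import Mathlib.Algebra.MonoidAlgebra.MapDomain
import Mathlib.Algebra.MonoidAlgebra.Basic
import Mathlib.GroupTheory.ResiduallyFinite
import Mathlib.LinearAlgebra.FiniteDimensional.Basic
import Mathlib.LinearAlgebra.FiniteDimensional.Lemmas
import Mathlib.Algebra.Field.ZMod

/-! # P186: group algebras of residually finite groups are directly finite -/

namespace Vale.Agent.P186.Hyp.RF

/-- A finite-dimensional algebra over a field is directly finite. -/
theorem mul_eq_one_comm_of_finite {K A : Type*} [Field K] [Ring A] [Algebra K A]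
    [FiniteDimensional K A] {a b : A} (h : a * b = 1) : b * a = 1 := by
  have h1 : LinearMap.mulLeft K a * LinearMap.mulLeft K b = 1 := by
    ext x
    simp [← mul_assoc, h]
  have h2 : LinearMap.mulLeft K b * LinearMap.mulLeft K a = 1 := mul_eq_one_comm.1 h1
  have h3 := LinearMap.congr_fun h2 1
  simpa using h3

/-- In a residually finite group a finite set of nontrivial elements is avoided by some normal
subgroup of finite index. -/
theorem exists_normal_avoid {G : Type*} [Group G] [Group.ResiduallyFinite G] (s : Finset G)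
    (hs : (1 : G) ∉ s) : ∃ N : Subgroup G, N.Normal ∧ N.FiniteIndex ∧ ∀ g ∈ s, g ∉ N := by
  classical
  induction s using Finset.induction_on with
  | empty => exact ⟨⊤, inferInstance, inferInstance, by simp⟩
  | insert g s hg ih =>
    obtain ⟨N, h1, h2, h3⟩ := ih fun h => hs (Finset.mem_insert_of_mem h)
    have hg1 : g ≠ 1 := fun h => hs (h ▸ Finset.mem_insert_self g s)
    obtain ⟨H, hH⟩ := Group.exists_finiteIndexNormalSubgroup_notMem g hg1
    refine ⟨N ⊓ H.toSubgroup, inferInstance, inferInstance, ?_⟩
    intro x hx
    rcases Finset.mem_insert.1 hx with rfl | hx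
    · exact fun h => hH h.2
    · exact fun h => h3 x hx h.1

/-- The group algebra over a field of a residually finite group is directly finite. -/
theorem directlyFinite_of_residuallyFinite {G : Type*} [Group G] [Group.ResiduallyFinite G]
    {K : Type*} [Field K] {a b : MonoidAlgebra K G} (h : a * b = 1) : b * a = 1 := by
  classical
  by_contra hne
  set c := b * a - 1 with hc
  have hc0 : c ≠ 0 := sub_ne_zero.2 hne
  obtain ⟨g, hg⟩ : ∃ g, c.coeff g ≠ 0 := by
    by_contra hall
    push Not at hall
    exact hc0 (MonoidAlgebra.ext (Finsupp.ext hall))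
  obtain ⟨N, hN1, hN2, hN3⟩ := exists_normal_avoid
    ((c.coeff.support.erase g).image fun x => g⁻¹ * x) (by
      rw [Finset.mem_image]
      rintro ⟨x, hx, hx1⟩
      exact (Finset.mem_erase.1 hx).1 (inv_mul_eq_one.1 hx1).symm)
  let π : G →* G ⧸ N := QuotientGroup.mk' N
  let f := MonoidAlgebra.mapDomainRingHom K π
  have hfin : Finite (G ⧸ N) := inferInstance
  have h1 : f b * f a = 1 := by
    refine mul_eq_one_comm_of_finite (K := K) ?_
    rw [← map_mul, h, map_one]
  have h2 : f c = 0 := by rw [hc, map_sub, map_mul, h1, map_one, sub_self]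
  have h3 : (f c).coeff (π g) = c.coeff g := by
    change Finsupp.mapDomain π c.coeff (π g) = c.coeff g
    rw [Finsupp.mapDomain, Finsupp.sum_apply, Finsupp.sum, Finset.sum_eq_single g]
    · simp
    · intro x hx hxg
      rw [Finsupp.single_apply, if_neg]
      intro heq
      refine hN3 (g⁻¹ * x) (Finset.mem_image.2 ⟨x, Finset.mem_erase.2 ⟨hxg, hx⟩, rfl⟩) ?_
      exact QuotientGroup.eq.1 heq.symm
    · intro hg'
      rw [Finsupp.notMem_support_iff.1 hg', Finsupp.single_zero, Finsupp.zero_apply]
  rw [h2] at h3
  exact hg h3.symm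

end Vale.Agent.P186.Hyp.RF

namespace Vale.Agent.P186.Hyp

/-- (RF) The group algebra over `F_2` of a residually finite group is directly finite. -/
theorem rf_df {G : Type} [Group G] [Group.ResiduallyFinite G] (a b : MonoidAlgebra (ZMod 2) G)
    (h : a * b = 1) : b * a = 1 := RF.directlyFinite_of_residuallyFinite h

/-- The statement `RFStmt` of `Final/Asm.lean`. -/
theorem rf : ∀ (G : Type) [Group G], Group.ResiduallyFinite G → ∀ a b : MonoidAlgebra (ZMod 2) G,
    a * b = 1 → b * a = 1 := fun _ _ hG a b h =>
  haveI := hG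
  RF.directlyFinite_of_residuallyFinite h

end Vale.Agent.P186.Hyp
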