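import Mathlib

/-! # P186: word-hyperbolic groups, area, and the target of block HYP (captain helper6)

`wordDist S g h` = distance of `g` and `h` in the Cayley graph of `G` with respect to the finite set `S` (edges `g — g s`, `s ∈ S`).
Geodesics are sequences of vertices `a 0, …, a l` with `wordDist (a i) (a j) = |i - j|`. -/

namespace Vale.Agent.P186.Hyp

variable {G : Type*} [Group G]

/-- there is a path of length `n` from `g` to `h` in the Cayley graph of `G` with respect to `S` -/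
def PathLen (S : Finset G) (g h : G) (n : ℕ) : Prop :=
  ∃ l : List G, l.length = n ∧ (∀ x ∈ l, x ∈ S ∨ x⁻¹ ∈ S) ∧ g * l.prod = h

/-- distance in the Cayley graph of `G` with respect to `S` -/
noncomputable def wordDist (S : Finset G) (g h : G) : ℕ := sInf {n | PathLen S g h n}

/-- `a 0, …, a l` is a geodesic of length `l` from `x` to `y` in the Cayley graph -/
structure IsGeod (S : Finset G) (x y : G) (a : ℕ → G) (l : ℕ) : Prop where
  start : a 0 = x
  stop : a l = y
  geod : ∀ i j, i ≤ j → j ≤ l → wordDist S (a i) (a j) = j - i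

/-- every geodesic triangle is `δ`-thin: every vertex of a side is at distance at most `δ` from the union of the two other sides -/
def ThinTriangles (S : Finset G) (δ : ℕ) : Prop :=
  ∀ (x y z : G) (a b c : ℕ → G) (l m n : ℕ), IsGeod S x y a l → IsGeod S y z b m → IsGeod S z x c n →
    ∀ i ≤ l, (∃ j ≤ m, wordDist S (a i) (b j) ≤ δ) ∨ (∃ j ≤ n, wordDist S (a i) (c j) ≤ δ)

/-- word-hyperbolic group: for some finite generating set all geodesic triangles of the Cayley graph are `δ`-thin -/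
def WordHyperbolic (G : Type*) [Group G] : Prop :=
  ∃ (S : Finset G) (δ : ℕ), Subgroup.closure (S : Set G) = ⊤ ∧ ThinTriangles S δ

/-! ## Area -/

variable {L : Type*}

/-- `Ar R k u`: `u` is a product of `k` conjugates of elements of `R` and their inverses -/
inductive Ar (R : Set (FreeGroup L)) : ℕ → FreeGroup L → Prop
  | nil : Ar R 0 1
  | cons (k : ℕ) (u v r : FreeGroup L) : r ∈ R → Ar R k u → Ar R (k + 1) (v * r * v⁻¹ * u)
  | cons' (k : ℕ) (u v r : FreeGroup L) : r ∈ R → Ar R k u → Ar R (k + 1) (v * r⁻¹ * v⁻¹ * u)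

open Classical in
/-- the image of the generators in the presented group -/
noncomputable def gens [Fintype L] (R : Set (FreeGroup L)) : Finset (PresentedGroup R) :=
  Finset.univ.image fun a : L => PresentedGroup.of a

/-- **HYP**: linear isoperimetric inequality implies thin triangles -/
def HypStmt : Prop := ∀ (L : Type) [Fintype L] (R : Set (FreeGroup L)), R.Finite → ∀ A : ℕ,
  (∀ u : List (L × Bool), PresentedGroup.mk R (FreeGroup.mk u) = 1 → ∃ k, k ≤ A * (u.length + 1) ∧ Ar R k (FreeGroup.mk u)) →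
  ∃ δ : ℕ, ThinTriangles (gens R) δ

/-- **S1 + S2** (helper536). `α` = the geodesic `a 0, …, a l`, `γ` = a path (word) from `a l` back to `a 0` of length `n`; if all vertices of
`γ` are at distance at least `R₀` from `a i`, `i₀ ≤ i ≤ i₁`, then `R₀ (i₁ - i₀) ≤ C (l + n)`. -/
def StokesStmt : Prop := ∀ (L : Type) [Fintype L] (R : Set (FreeGroup L)), R.Finite → ∀ A : ℕ,
  (∀ u : List (L × Bool), PresentedGroup.mk R (FreeGroup.mk u) = 1 → ∃ k, k ≤ A * (u.length + 1) ∧ Ar R k (FreeGroup.mk u)) →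
  ∃ C : ℕ, ∀ (x y : PresentedGroup R) (a : ℕ → PresentedGroup R) (l : ℕ), IsGeod (gens R) x y a l →
    ∀ (w : ℕ → PresentedGroup R) (n : ℕ), w 0 = y → w n = x → (∀ i < n, wordDist (gens R) (w i) (w (i + 1)) ≤ 1) →
    ∀ (R₀ i₀ i₁ : ℕ), i₀ ≤ i₁ → i₁ ≤ l → (∀ i, i₀ ≤ i → i ≤ i₁ → ∀ j ≤ n, R₀ ≤ wordDist (gens R) (a i) (w j)) →
      R₀ * (i₁ - i₀) ≤ C * (l + n + 1)

/-- **S3** (helper527, helper909): pure metric geometry. `S` generates `G`. -/
def ThinStmt : Prop := ∀ (G : Type) [Group G] (S : Finset G), Subgroup.closure (S : Set G) = ⊤ → ∀ C : ℕ,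
  (∀ (x y : G) (a : ℕ → G) (l : ℕ), IsGeod S x y a l →
    ∀ (w : ℕ → G) (n : ℕ), w 0 = y → w n = x → (∀ i < n, wordDist S (w i) (w (i + 1)) ≤ 1) →
    ∀ (R₀ i₀ i₁ : ℕ), i₀ ≤ i₁ → i₁ ≤ l → (∀ i, i₀ ≤ i → i ≤ i₁ → ∀ j ≤ n, R₀ ≤ wordDist S (a i) (w j)) →
      R₀ * (i₁ - i₀) ≤ C * (l + n + 1)) →
  ∃ δ : ℕ, ThinTriangles S δ

theorem gens_closure {L : Type} [Fintype L] (R : Set (FreeGroup L)) :
    Subgroup.closure (gens R : Set (PresentedGroup R)) = ⊤ := by
  classical
  have h : (gens R : Set (PresentedGroup R)) = Set.range (PresentedGroup.of (rels := R)) := by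
    unfold gens
    simp
  rw [h]
  exact PresentedGroup.closure_range_of R

theorem hyp_of (h1 : StokesStmt) (h2 : ThinStmt) : HypStmt := by
  intro L _ R hR A hA
  obtain ⟨C, hC⟩ := h1 L R hR A hA
  exact h2 (PresentedGroup R) (gens R) (gens_closure R) C hC

theorem wordHyperbolic_of (h : HypStmt) {L : Type} [Fintype L] (R : Set (FreeGroup L)) (hR : R.Finite) (A : ℕ)
    (hA : ∀ u : List (L × Bool), PresentedGroup.mk R (FreeGroup.mk u) = 1 → ∃ k, k ≤ A * (u.length + 1) ∧ Ar R k (FreeGroup.mk u)) :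
    WordHyperbolic (PresentedGroup R) := by
  obtain ⟨δ, hδ⟩ := h L R hR A hA
  exact ⟨gens R, δ, gens_closure R, hδ⟩

end Vale.Agent.P186.Hyp
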