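import Vale.Agent.P186.Defs
import Vale.Agent.P186.Hyp.Defs

/-! # P186, block HYP: the two halves on the landed definitions (`Vale.Agent.P186.ThinTriangles`, `IsHyperbolicGroup`), captain helper6 -/

namespace Vale.Agent.P186.Hyp

/-- Stokes inequality for closed walks: `|∑ (f u + f v) (g v - g u)| ≤ C · length` for 1-Lipschitz `f`, `g` -/
def StokesIneq {V : Type} (Γ : SimpleGraph V) (C : ℕ) : Prop :=
  ∀ f g : V → ℤ, (∀ u v, Γ.Adj u v → |f u - f v| ≤ 1) → (∀ u v, Γ.Adj u v → |g u - g v| ≤ 1) →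
    ∀ (x : V) (c : Γ.Walk x x),
      |(c.darts.map (fun d => (f d.fst + f d.snd) * (g d.snd - g d.fst))).sum| ≤ C * c.length

/-- **GROUP PART** (helper536) -/
def LinStmt : Prop := ∀ (L : Type) [Fintype L] (R : Set (FreeGroup L)), R.Finite → ∀ A : ℕ,
  (∀ u : List (L × Bool), PresentedGroup.mk R (FreeGroup.mk u) = 1 →
    ∃ k, k ≤ A * (u.length + 1) ∧ Ar R k (FreeGroup.mk u)) →
  ∃ C : ℕ, StokesIneq (SimpleGraph.mulCayley (gens R : Set (PresentedGroup R))) C

/-- **GRAPH PART** (helper909, helper527) -/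
def GraphStmt : Prop := ∀ (V : Type) (Γ : SimpleGraph V) (C : ℕ), Γ.Connected → StokesIneq Γ C →
  ∃ δ : ℕ, Vale.Agent.P186.ThinTriangles Γ δ

/-- the Cayley graph of a generating set is connected -/
def ConnStmt : Prop := ∀ (G : Type) [Group G] (S : Set G), Subgroup.closure S = ⊤ →
  (SimpleGraph.mulCayley S).Connected

/-- linear isoperimetric inequality implies hyperbolic -/
theorem hyperbolic_of (h1 : LinStmt) (h2 : GraphStmt) (h3 : ConnStmt) {L : Type} [Fintype L] (R : Set (FreeGroup L))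
    (hR : R.Finite) (A : ℕ)
    (hA : ∀ u : List (L × Bool), PresentedGroup.mk R (FreeGroup.mk u) = 1 →
      ∃ k, k ≤ A * (u.length + 1) ∧ Ar R k (FreeGroup.mk u)) :
    Vale.Agent.P186.IsHyperbolicGroup (PresentedGroup R) := by
  obtain ⟨C, hC⟩ := h1 L R hR A hA
  obtain ⟨δ, hδ⟩ := h2 _ _ C (h3 _ _ (gens_closure R)) hC
  exact ⟨gens R, gens_closure R, δ, hδ⟩

end Vale.Agent.P186.Hyp
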