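import Vale.Agent.P201.S.Wtl
import Vale.Agent.P186.Hyp.Cut
import Vale.Agent.P201.S.Defs

/-! # P186: from the linear isoperimetric inequality of the machine (P201/S) to hyperbolicity (helper6) -/

namespace Vale.Agent.P186.Hyp

open Vale.Agent.P201.S

instance instFintypeLet (S : Sys) : Fintype (Let S) := by
  classical
  exact Fintype.ofEquiv (Unit ⊕ (S.R ⊕ S.B))
    { toFun := fun a => Sum.elim (fun _ => Let.t) (Sum.elim Let.x Let.y) a
      invFun := fun a => match a with
        | Let.t => Sum.inl ()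
        | Let.x r => Sum.inr (Sum.inl r)
        | Let.y b => Sum.inr (Sum.inr b)
      left_inv := by
        rintro (a | a | a) <;> rfl
      right_inv := by
        rintro (a | a | a) <;> rfl }

lemma rels_finite {S : Sys} (σ : Equiv.Perm S.C) : (rels σ).Finite := Set.finite_range _

lemma ar_of_expr {S : Sys} {σ : Equiv.Perm S.C} {k : ℕ} {u : FreeGroup (Let S)} {z : Chn σ}
    (h : Expr σ k u z) : Ar (rels σ) k u := by
  induction h with
  | nil => exact Ar.nil
  | cons k u z v q _ ih => exact Ar.cons k u v (val (relw σ q)) ⟨q, rfl⟩ ih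

lemma wtw_le {S : Sys} (Y : ℕ) (l : List (Let S × Bool)) : wtw Y l ≤ (Y + 1) * l.length := by
  unfold wtw
  induction l with
  | nil => simp
  | cons a l ih =>
    simp only [List.map_cons, List.sum_cons, List.length_cons]
    have h : wtl Y a.1 ≤ Y + 1 := by
      cases a.1 <;> simp [wtl]
    nlinarith

/-- hyperbolicity of the group of the machine -/
theorem hyperbolic_machine (h1 : LinStmt) (h2 : GraphStmt) (h3 : ConnStmt) {S : Sys} (σ : Equiv.Perm S.C)
    (e1 : ℝ) (he1 : 0 < e1) (Y : ℕ)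
    (hlin : ∀ l : List (Let S × Bool), PresentedGroup.mk (rels σ) (val l) = 1 →
        ∃ k z, Expr σ k (val l) z ∧ e1 / 2 * k ≤ wtw Y l) :
    Vale.Agent.P186.IsHyperbolicGroup (Gp σ) := by
  refine hyperbolic_of h1 h2 h3 (rels σ) (rels_finite σ) ⌈2 * ((Y : ℝ) + 1) / e1⌉₊ fun u hu => ?_
  obtain ⟨k, z, hk, hle⟩ := hlin u hu
  refine ⟨k, ?_, ar_of_expr hk⟩
  have h4 : (wtw Y u : ℝ) ≤ ((Y : ℝ) + 1) * (u.length + 1) := by
    have := wtw_le Y u
    have h5 : (wtw Y u : ℝ) ≤ ((Y + 1) * u.length : ℕ) := by exact_mod_cast this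
    push_cast at h5
    have h6 : (0 : ℝ) ≤ (Y : ℝ) + 1 := by positivity
    nlinarith
  have h5 : (k : ℝ) ≤ 2 * ((Y : ℝ) + 1) / e1 * (u.length + 1) := by
    rw [div_mul_eq_mul_div, le_div_iff₀ he1]
    nlinarith
  have h6 : (k : ℝ) ≤ (⌈2 * ((Y : ℝ) + 1) / e1⌉₊ : ℝ) * (u.length + 1) :=
    h5.trans (mul_le_mul_of_nonneg_right (Nat.le_ceil _) (by positivity))
  exact_mod_cast h6

end Vale.Agent.P186.Hyp
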