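import Mathlib

/-!
Linear (homological) isoperimetric inequality implies thin geodesic triangles.
Paths in the Cayley graph are lists of signed letters.
-/

namespace Vale.Agent.P186.Hyp

open Finset Classical

variable {G A : Type*} [Group G] (π : A → G)

/-- value of a signed letter -/
def st (e : A × Bool) : G := if e.2 then π e.1 else (π e.1)⁻¹

/-- end point of the path with label `l` starting at `g` -/
def ep : G → List (A × Bool) → G
  | g, [] => g
  | g, e :: l => ep (g * st π e) l

/-- all vertices of the path satisfy `P` -/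
def All (P : G → Prop) : G → List (A × Bool) → Prop
  | g, [] => P g
  | g, e :: l => P g ∧ All P (g * st π e) l

/-- one-chain of a path -/
noncomputable def ch : G → List (A × Bool) → (G × A →₀ ℤ)
  | _, [] => 0
  | g, e :: l => (if e.2 then Finsupp.single (g, e.1) 1
      else Finsupp.single (g * (π e.1)⁻¹, e.1) (-1)) + ch (g * st π e) l

/-- pairing of the part of a chain with tails in `P` with the coboundary of `φ` -/
noncomputable def Lam (φ : G → ℤ) (P : G → Prop) : (G × A →₀ ℤ) →ₗ[ℤ] ℤ :=
  Finsupp.linearCombination ℤ (fun x : G × A => if P x.1 then φ (x.1 * π x.2) - φ x.1 else 0)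

variable {π}

theorem ep_append (g : G) (l l' : List (A × Bool)) : ep π g (l ++ l') = ep π (ep π g l) l' := by
  induction l generalizing g with
  | nil => rfl
  | cons e l ih => simp [ep, ih]

theorem ch_append (g : G) (l l' : List (A × Bool)) :
    ch π g (l ++ l') = ch π g l + ch π (ep π g l) l' := by
  induction l generalizing g with
  | nil => simp [ch, ep]
  | cons e l ih => simp [ch, ep, ih, add_assoc]

theorem ep_mul (h g : G) (l : List (A × Bool)) : ep π (h * g) l = h * ep π g l := by
  induction l generalizing g with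
  | nil => rfl
  | cons e l ih => simp [ep, mul_assoc, ← ih]

theorem All.mono {P Q : G → Prop} (h : ∀ v, P v → Q v) {g : G} {l : List (A × Bool)}
    (hl : All π P g l) : All π Q g l := by
  induction l generalizing g with
  | nil => exact h _ hl
  | cons e l ih => exact ⟨h _ hl.1, ih hl.2⟩

theorem All.start {P : G → Prop} {g : G} {l : List (A × Bool)} (hl : All π P g l) : P g := by
  cases l with
  | nil => exact hl
  | cons e l => exact hl.1

theorem st_true (a : A) : st π (a, true) = π a := rfl
theorem st_false (a : A) : st π (a, false) = (π a)⁻¹ := rfl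

theorem Lam_single (φ : G → ℤ) (P : G → Prop) (x : G × A) (n : ℤ) :
    Lam π φ P (Finsupp.single x n) = n * (if P x.1 then φ (x.1 * π x.2) - φ x.1 else 0) := by
  simp [Lam]

theorem Lam_ch_le {φ : G → ℤ} (hφ : ∀ g a, |φ (g * π a) - φ g| ≤ 1) (P : G → Prop) (g : G)
    (l : List (A × Bool)) : |Lam π φ P (ch π g l)| ≤ l.length := by
  induction l generalizing g with
  | nil => simp [ch]
  | cons e l ih =>
    obtain ⟨a, b⟩ := e
    simp only [ch, map_add, List.length_cons]
    push_cast
    refine (abs_add_le _ _).trans ?_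
    have h2 := ih (g * st π (a, b))
    have h1 : |Lam π φ P (if (a, b).2 = true then Finsupp.single (g, (a, b).1) 1
      else Finsupp.single (g * (π (a, b).1)⁻¹, (a, b).1) (-1))| ≤ 1 := by
      cases b
      · simp only [Bool.false_eq_true, if_false, Lam_single]
        split_ifs
        · have := hφ (g * (π a)⁻¹) a
          rw [neg_one_mul, abs_neg]; exact this
        · simp
      · simp only [if_true, Lam_single]
        split_ifs
        · have := hφ g a
          rw [one_mul]; exact this
        · simp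
    linarith

theorem Lam_ch_all {φ : G → ℤ} {P : G → Prop} {g : G} {l : List (A × Bool)}
    (h : All π P g l) : Lam π φ P (ch π g l) = φ (ep π g l) - φ g := by
  induction l generalizing g with
  | nil => simp [ch, ep]
  | cons e l ih =>
    obtain ⟨a, b⟩ := e
    simp only [ch, map_add, ep]
    rw [ih h.2]
    have hs := h.2.start
    cases b
    · simp only [Bool.false_eq_true, if_false, Lam_single]
      have : P (g * (π a)⁻¹) := hs
      rw [if_pos this]
      simp only [st_false]
      have e1 : g * (π a)⁻¹ * π a = g := by group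
      rw [e1]; ring
    · simp only [if_true, Lam_single]
      rw [if_pos h.1]
      simp only [st_true]; ring

theorem Lam_ch_none {φ : G → ℤ} {P : G → Prop} {g : G} {l : List (A × Bool)}
    (h : All π (fun v => ¬ P v) g l) : Lam π φ P (ch π g l) = 0 := by
  induction l generalizing g with
  | nil => simp [ch]
  | cons e l ih =>
    obtain ⟨a, b⟩ := e
    simp only [ch, map_add]
    rw [ih h.2]
    have hs := h.2.start
    cases b
    · simp only [Bool.false_eq_true, if_false, Lam_single]
      have : ¬ P (g * (π a)⁻¹) := hs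
      rw [if_neg this]; simp
    · simp only [if_true, Lam_single]
      rw [if_neg h.1]; simp

/-! ### word metric -/

variable (π) in
/-- word distance -/
noncomputable def wd (g h : G) : ℕ := sInf {n | ∃ l : List (A × Bool), l.length = n ∧ ep π g l = h}

variable (π) in
def Gen : Prop := ∀ g : G, ∃ l : List (A × Bool), ep π 1 l = g

theorem Gen.ex (hg : Gen π) (g h : G) : ∃ l : List (A × Bool), ep π g l = h := by
  obtain ⟨l, hl⟩ := hg (g⁻¹ * h)
  refine ⟨l, ?_⟩
  have := ep_mul (π := π) g 1 l
  rw [mul_one] at this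
  rw [this, hl]; group

theorem wd_spec (hg : Gen π) (g h : G) : ∃ l : List (A × Bool), l.length = wd π g h ∧ ep π g l = h := by
  obtain ⟨l, hl⟩ := hg.ex g h
  exact Nat.sInf_mem (s := {n | ∃ l : List (A × Bool), l.length = n ∧ ep π g l = h}) ⟨_, l, rfl, hl⟩

theorem wd_le (g : G) (l : List (A × Bool)) : wd π g (ep π g l) ≤ l.length :=
  Nat.sInf_le ⟨l, rfl, rfl⟩

theorem wd_self (g : G) : wd π g g = 0 := Nat.le_zero.mp (wd_le (π := π) g [])

theorem wd_triangle (hg : Gen π) (a b c : G) : wd π a c ≤ wd π a b + wd π b c := by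
  obtain ⟨l, hl, hl'⟩ := wd_spec hg a b
  obtain ⟨m, hm, hm'⟩ := wd_spec hg b c
  have := wd_le (π := π) a (l ++ m)
  rw [ep_append, hl', hm', List.length_append] at this
  omega

/-- inverse word -/
def inv (l : List (A × Bool)) : List (A × Bool) := (l.map (fun e => (e.1, !e.2))).reverse

theorem inv_length (l : List (A × Bool)) : (inv l).length = l.length := by simp [inv]

theorem inv_cons (e : A × Bool) (l : List (A × Bool)) : inv (e :: l) = inv l ++ [(e.1, !e.2)] := by
  simp [inv]

theorem st_inv (e : A × Bool) : st π (e.1, !e.2) = (st π e)⁻¹ := by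
  obtain ⟨a, b⟩ := e
  cases b <;> simp [st]

theorem ep_inv (g : G) (l : List (A × Bool)) : ep π (ep π g l) (inv l) = g := by
  induction l generalizing g with
  | nil => rfl
  | cons e l ih =>
    rw [inv_cons, ep_append]
    simp only [ep]
    rw [ih, st_inv]; group

theorem wd_symm_le (hg : Gen π) (a b : G) : wd π b a ≤ wd π a b := by
  obtain ⟨l, hl, rfl⟩ := wd_spec hg a b
  have := wd_le (π := π) (ep π a l) (inv l)
  rw [ep_inv, inv_length] at this
  omega

theorem wd_symm (hg : Gen π) (a b : G) : wd π a b = wd π b a :=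
  le_antisymm (wd_symm_le hg b a) (wd_symm_le hg a b)

theorem wd_step (g : G) (a : A) : wd π g (g * π a) ≤ 1 := wd_le (π := π) g [(a, true)]

theorem all_near (hg : Gen π) (x g : G) (l : List (A × Bool)) :
    All π (fun v => wd π x v ≤ wd π x g + l.length) g l := by
  induction l generalizing g with
  | nil => simp [All]
  | cons e l ih =>
    refine ⟨by omega, ?_⟩
    refine (ih (g * st π e)).mono fun v hv => ?_
    have h1 : wd π g (g * st π e) ≤ 1 := wd_le (π := π) g [e]
    have h2 := wd_triangle hg x g (g * st π e)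
    simp only [List.length_cons]
    omega

/-! ### distance to a set -/

variable (π) in
noncomputable def fd (V : Set G) (g : G) : ℕ := sInf {n | ∃ v ∈ V, wd π v g = n}

theorem fd_spec {V : Set G} (hV : V.Nonempty) (g : G) : ∃ v ∈ V, wd π v g = fd π V g := by
  obtain ⟨v, hv⟩ := hV
  exact Nat.sInf_mem (s := {n | ∃ v ∈ V, wd π v g = n}) ⟨_, v, hv, rfl⟩

theorem fd_le {V : Set G} {v : G} (hv : v ∈ V) (g : G) : fd π V g ≤ wd π v g :=
  Nat.sInf_le ⟨v, hv, rfl⟩

theorem fd_lip (hg : Gen π) {V : Set G} (hV : V.Nonempty) (g h : G) :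
    fd π V h ≤ fd π V g + wd π g h := by
  obtain ⟨v, hv, h1⟩ := fd_spec (π := π) hV g
  have h2 := fd_le (π := π) hv h
  have h3 := wd_triangle hg v g h
  omega

/-! ### isoperimetric inequality and slices -/

variable (π) in
/-- every closed path of length `n` is, as a one-chain, a sum of at most `C * n` closed paths of
length at most `ρ` -/
def Iso (ρ C : ℕ) : Prop :=
  ∀ (g : G) (l : List (A × Bool)), ep π g l = g →
    ∃ (n : ℕ) (b : Fin n → G × List (A × Bool)), n ≤ C * l.length ∧
      (∀ j, ep π (b j).1 (b j).2 = (b j).1 ∧ (b j).2.length ≤ ρ) ∧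
      ch π g l = ∑ j, ch π (b j).1 (b j).2

theorem slice (hg : Gen π) {ρ : ℕ} {V : Set G} (hV : V.Nonempty) {φ : G → ℤ}
    (hφ : ∀ g a, |φ (g * π a) - φ g| ≤ 1) (r : ℕ) (x : G) (l : List (A × Bool))
    (hx : ep π x l = x) (hl : l.length ≤ ρ) :
    |Lam π φ (fun h => fd π V h ≤ r) (ch π x l)| ≤
      if r < fd π V x + ρ ∧ fd π V x ≤ r + ρ then (ρ : ℤ) else 0 := by
  have hn := all_near (π := π) hg x x l
  rw [wd_self] at hn
  split_ifs with h
  · refine (Lam_ch_le hφ _ x l).trans ?_
    exact_mod_cast hl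
  · rw [not_and_or] at h
    rcases h with h | h
    · rw [Lam_ch_all, hx]
      · simp
      · refine hn.mono fun v hv => ?_
        have := fd_lip hg hV x v
        omega
    · rw [Lam_ch_none]
      · simp
      · refine hn.mono fun v hv => ?_
        have h1 := fd_lip hg hV v x
        rw [wd_symm hg] at h1
        omega

theorem card_slice (k ρ f : ℕ) :
    ∑ r ∈ range k, (if r < f + ρ ∧ f ≤ r + ρ then (ρ : ℤ) else 0) ≤ 2 * ρ * ρ := by
  rw [← Finset.sum_filter, Finset.sum_const, nsmul_eq_mul]
  have : ((range k).filter (fun r => r < f + ρ ∧ f ≤ r + ρ)).card ≤ 2 * ρ := by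
    calc _ ≤ (Finset.Ico (f - ρ) (f + ρ)).card := by
          apply Finset.card_le_card
          intro r hr
          simp only [mem_filter, mem_range, mem_Ico] at hr ⊢
          omega
      _ ≤ 2 * ρ := by simp only [Nat.card_Ico]; omega
  have h2 : (((range k).filter (fun r => r < f + ρ ∧ f ≤ r + ρ)).card : ℤ) ≤ 2 * ρ := by
    exact_mod_cast this
  have h3 : (0 : ℤ) ≤ ρ := by positivity
  nlinarith

theorem count (hg : Gen π) {ι : Type} [Fintype ι] {k ρ N : ℕ} (c : G × A →₀ ℤ)
    (b : Fin N → G × List (A × Bool))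
    (hb : ∀ j, ep π (b j).1 (b j).2 = (b j).1 ∧ (b j).2.length ≤ ρ)
    (hc : c = ∑ j, ch π (b j).1 (b j).2)
    (V : ι → Set G) (hV : ∀ i, (V i).Nonempty)
    (φ : ι → G → ℤ) (hφ : ∀ i g a, |φ i (g * π a) - φ i g| ≤ 1)
    (hsep : ∀ i j, i ≠ j → ∀ v ∈ V i, ∀ w ∈ V j, 2 * (k + ρ) < wd π v w)
    (T : ℤ) (ℓ : ι → ℤ)
    (hlow : ∀ i, ∀ r < k, ℓ i - T ≤ |Lam π (φ i) (fun h => fd π (V i) h ≤ r) c|) :
    (k : ℤ) * ∑ i, (ℓ i - T) ≤ 2 * ρ * ρ * N := by
  have h1 : (k : ℤ) * ∑ i, (ℓ i - T) = ∑ i, ∑ r ∈ range k, (ℓ i - T) := by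
    rw [Finset.mul_sum]
    apply Finset.sum_congr rfl
    intro i _
    rw [Finset.sum_const, card_range, nsmul_eq_mul]
  have h2 : ∑ i, ∑ r ∈ range k, (ℓ i - T) ≤ ∑ i, ∑ r ∈ range k, ∑ j,
      (if r < fd π (V i) (b j).1 + ρ ∧ fd π (V i) (b j).1 ≤ r + ρ then (ρ : ℤ) else 0) := by
    refine Finset.sum_le_sum fun i _ => Finset.sum_le_sum fun r hr => ?_
    refine (hlow i r (mem_range.mp hr)).trans ?_
    rw [hc, map_sum]
    refine (Finset.abs_sum_le_sum_abs _ _).trans (Finset.sum_le_sum fun j _ => ?_)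
    exact slice hg (hV i) (hφ i) r _ _ (hb j).1 (hb j).2
  have h3 : ∑ i, ∑ r ∈ range k, ∑ j,
      (if r < fd π (V i) (b j).1 + ρ ∧ fd π (V i) (b j).1 ≤ r + ρ then (ρ : ℤ) else 0) =
      ∑ j, ∑ i, ∑ r ∈ range k,
      (if r < fd π (V i) (b j).1 + ρ ∧ fd π (V i) (b j).1 ≤ r + ρ then (ρ : ℤ) else 0) := by
    rw [Finset.sum_comm (s := (univ : Finset (Fin N)))]
    refine Finset.sum_congr rfl fun i _ => ?_
    rw [Finset.sum_comm]
  have h4 : ∀ j, ∑ i, ∑ r ∈ range k,
      (if r < fd π (V i) (b j).1 + ρ ∧ fd π (V i) (b j).1 ≤ r + ρ then (ρ : ℤ) else 0) ≤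
      2 * ρ * ρ := by
    intro j
    by_cases hex : ∃ i, fd π (V i) (b j).1 < k + ρ
    · obtain ⟨i, hi⟩ := hex
      rw [Finset.sum_eq_single i]
      · exact card_slice k ρ _
      · intro i' _ hne
        refine Finset.sum_eq_zero fun r hr => ?_
        rw [if_neg]
        rintro ⟨_, h6⟩
        have hr' := mem_range.mp hr
        obtain ⟨v, hv, hv'⟩ := fd_spec (π := π) (hV i) (b j).1
        obtain ⟨w, hw, hw'⟩ := fd_spec (π := π) (hV i') (b j).1
        have h7 := hsep i i' hne.symm v hv w hw
        have h8 := wd_triangle hg v (b j).1 w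
        rw [wd_symm hg (b j).1 w] at h8
        omega
      · intro h; exact absurd (mem_univ i) h
    · push Not at hex
      rw [Finset.sum_eq_zero]
      · positivity
      · intro i _
        refine Finset.sum_eq_zero fun r hr => ?_
        rw [if_neg]
        rintro ⟨_, h6⟩
        have hr' := mem_range.mp hr
        have := hex i
        omega
  calc (k : ℤ) * ∑ i, (ℓ i - T) ≤ _ := h1.le.trans h2
    _ = _ := h3
    _ ≤ ∑ j : Fin N, (2 * ρ * ρ : ℤ) := Finset.sum_le_sum fun j _ => h4 j
    _ = 2 * ρ * ρ * N := by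
      rw [Finset.sum_const, card_univ, Fintype.card_fin, nsmul_eq_mul]; ring

end Vale.Agent.P186.Hyp
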