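import Vale.Agent.P186.Hyp.Core

/-!
Thin geodesic triangles from the isoperimetric inequality.
-/

namespace Vale.Agent.P186.Hyp

open Finset Classical

variable {G A : Type*} [Group G] {π : A → G}

variable (π) in
/-- the vertices `p 0, ..., p n` form a geodesic -/
def Geod (p : ℕ → G) (n : ℕ) : Prop := ∀ i j, i ≤ j → j ≤ n → wd π (p i) (p j) = j - i

theorem Geod.rev (hg : Gen π) {p : ℕ → G} {n : ℕ} (hp : Geod π p n) {m : ℕ} (hm : m ≤ n) :
    Geod π (fun s => p (m - s)) m := by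
  intro i j hij hj
  show wd π (p (m - i)) (p (m - j)) = j - i
  rw [wd_symm hg, hp (m - j) (m - i) (by omega) (by omega)]
  omega

theorem Geod.sub {p : ℕ → G} {n : ℕ} (hp : Geod π p n) {a m : ℕ} (hm : a + m ≤ n) :
    Geod π (fun s => p (a + s)) m := by
  intro i j hij hj
  show wd π (p (a + i)) (p (a + j)) = j - i
  rw [hp (a + i) (a + j) (by omega) (by omega)]
  omega

theorem Geod.word (hg : Gen π) {p : ℕ → G} {n : ℕ} (hp : Geod π p n) :
    ∃ l : List (A × Bool), l.length = n ∧ ep π (p 0) l = p n ∧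
      ∀ P : G → Prop, (∀ s ≤ n, P (p s)) → All π P (p 0) l := by
  induction n generalizing p with
  | zero => exact ⟨[], rfl, rfl, fun P hP => hP 0 le_rfl⟩
  | succ n ih =>
    have h1 : Geod π (fun s => p (1 + s)) n := hp.sub (by omega)
    obtain ⟨l, hl, hl', hl''⟩ := ih h1
    have h2 := hp 0 1 (by omega) (by omega)
    obtain ⟨w, hw, hw'⟩ := wd_spec hg (p 0) (p 1)
    rw [h2] at hw
    obtain ⟨e, rfl⟩ := List.length_eq_one_iff.mp hw
    simp only [ep] at hw'
    refine ⟨e :: l, by simp [hl], ?_, ?_⟩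
    · simp only [ep]
      rw [hw']
      simpa [add_comm] using hl'
    · intro P hP
      refine ⟨hP 0 (by omega), ?_⟩
      rw [hw']
      exact hl'' P (fun s hs => hP (1 + s) (by omega))

theorem wd_lip (hg : Gen π) (x g : G) (a : A) :
    |((wd π x (g * π a) : ℕ) : ℤ) - (wd π x g : ℕ)| ≤ 1 := by
  have h1 := wd_triangle hg x g (g * π a)
  have h2 := wd_triangle hg x (g * π a) g
  have h3 := wd_step (π := π) g a
  rw [wd_symm hg (g * π a) g] at h2
  rw [abs_le]
  constructor <;> omega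

theorem poly (hg : Gen π) {ρ C : ℕ} (hI : Iso π ρ C) (hρ : 0 < ρ) (hC : 0 < C)
    {ι : Type} [Fintype ι] (p : ι → ℕ → G) (n : ι → ℕ) (hp : ∀ i, Geod π (p i) (n i))
    (α : ι → List (A × Bool))
    (hα : ∀ i, ep π (p i 0) (α i) = p i (n i) ∧
      ∀ P : G → Prop, (∀ s ≤ n i, P (p i s)) → All π P (p i 0) (α i))
    (g : G) (l : List (A × Bool)) (hl : ep π g l = g) (T : ℕ) (e : G × A →₀ ℤ)
    (he : ∀ φ : G → ℤ, (∀ g a, |φ (g * π a) - φ g| ≤ 1) → ∀ P, |Lam π φ P e| ≤ T)
    (hch : ch π g l = ∑ i, ch π (p i 0) (α i) + e)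
    (hlen : l.length ≤ ∑ i, n i + T)
    (hsep : ∀ i j, i ≠ j → ∀ s ≤ n i, ∀ s' ≤ n j,
      2 * (4 * ρ * ρ * C + ρ) < wd π (p i s) (p j s')) :
    ∑ i, n i ≤ (2 * Fintype.card ι + 1) * T := by
  obtain ⟨N, b, hN, hb, hc⟩ := hI g l hl
  have key := count hg (k := 4 * ρ * ρ * C) (ch π g l) b hb hc
    (fun i => {v | ∃ s ≤ n i, p i s = v}) (fun i => ⟨p i 0, 0, by omega, rfl⟩)
    (fun i v => ((wd π (p i 0) v : ℕ) : ℤ)) (fun i g a => wd_lip hg _ g a)
    (by
      rintro i j hij v ⟨s, hs, rfl⟩ w ⟨s', hs', rfl⟩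
      exact hsep i j hij s hs s' hs') (T : ℤ) (fun i => (n i : ℤ))
    (by
      intro i r hr
      rw [hch, map_add, map_sum]
      have h1 : ∑ j, Lam π (fun v => ((wd π (p i 0) v : ℕ) : ℤ))
          (fun h => fd π {v | ∃ s ≤ n i, p i s = v} h ≤ r) (ch π (p j 0) (α j)) = n i := by
        rw [Finset.sum_eq_single i]
        · rw [Lam_ch_all, (hα i).1, wd_self]
          · have := hp i 0 (n i) (by omega) le_rfl
            simp [this]
          · refine (hα i).2 _ fun s hs => ?_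
            have := fd_le (π := π) (V := {v | ∃ s ≤ n i, p i s = v}) (v := p i s) ⟨s, hs, rfl⟩ (p i s)
            rw [wd_self] at this
            omega
        · intro j _ hji
          apply Lam_ch_none
          refine (hα j).2 _ fun s hs => ?_
          obtain ⟨v, ⟨s', hs', rfl⟩, hv⟩ := fd_spec (π := π)
            (V := {v | ∃ s ≤ n i, p i s = v}) ⟨p i 0, 0, by omega, rfl⟩ (p j s)
          have := hsep i j hji.symm s' hs' s hs
          omega
        · intro h; exact absurd (mem_univ i) h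
      rw [h1]
      have h2 := he (fun v => ((wd π (p i 0) v : ℕ) : ℤ)) (fun g a => wd_lip hg _ g a)
        (fun h => fd π {v | ∃ s ≤ n i, p i s = v} h ≤ r)
      rw [abs_le] at h2
      refine le_trans ?_ (le_abs_self _)
      linarith [h2.1])
  rw [Finset.sum_sub_distrib, Finset.sum_const, card_univ, nsmul_eq_mul] at key
  have hN' : (N : ℤ) ≤ C * (∑ i, (n i : ℤ) + T) := by
    have : N ≤ C * (∑ i, n i + T) := hN.trans (Nat.mul_le_mul_left _ hlen)
    exact_mod_cast this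
  have hX : (0 : ℤ) < 2 * ρ * ρ * C := by positivity
  have h5 : (2 * ρ * ρ * C : ℤ) * (2 * (∑ i, (n i : ℤ) - Fintype.card ι * T)) ≤
      (2 * ρ * ρ * C) * (∑ i, (n i : ℤ) + T) := by
    have h6 : (2 * ρ * ρ : ℤ) * N ≤ (2 * ρ * ρ) * (C * (∑ i, (n i : ℤ) + T)) :=
      mul_le_mul_of_nonneg_left hN' (by positivity)
    push_cast at key
    calc (2 * ρ * ρ * C : ℤ) * (2 * (∑ i, (n i : ℤ) - Fintype.card ι * T))
        = 4 * ρ * ρ * C * (∑ i, (n i : ℤ) - Fintype.card ι * T) := by ring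
      _ ≤ 2 * ρ * ρ * N := key
      _ ≤ _ := h6
      _ = _ := by ring
  have h7 := le_of_mul_le_mul_left h5 hX
  have h8 : (∑ i, (n i : ℤ)) ≤ (2 * Fintype.card ι + 1) * T := by linarith
  exact_mod_cast h8

theorem bigon (hg : Gen π) {ρ C : ℕ} (hI : Iso π ρ C) (hρ : 0 < ρ) (hC : 0 < C)
    {p w : ℕ → G} {n m T : ℕ} (hp : Geod π p n) (hw : Geod π w m)
    (h1 : wd π (p n) (w 0) + wd π (w m) (p 0) ≤ T)
    (hsep : ∀ s ≤ n, ∀ s' ≤ m, 2 * (4 * ρ * ρ * C + ρ) < wd π (p s) (w s')) :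
    n ≤ 5 * T := by
  obtain ⟨α, hα1, hα2, hα3⟩ := hp.word hg
  obtain ⟨β, hβ1, hβ2, hβ3⟩ := hw.word hg
  obtain ⟨s, hs1, hs2⟩ := wd_spec hg (p n) (w 0)
  obtain ⟨t, ht1, ht2⟩ := wd_spec hg (w m) (p 0)
  have key := poly hg hI hρ hC (ι := Fin 2) ![p, w] ![n, m]
    (by intro i; fin_cases i; exacts [hp, hw]) ![α, β]
    (by intro i; fin_cases i; exacts [⟨hα2, hα3⟩, ⟨hβ2, hβ3⟩])
    (p 0) (α ++ (s ++ (β ++ t)))
    (by rw [ep_append, hα2, ep_append, hs2, ep_append, hβ2, ht2]) T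
    (ch π (p n) s + ch π (w m) t)
    (by
      intro φ hφ P
      rw [map_add]
      refine (abs_add_le _ _).trans ?_
      have a1 := Lam_ch_le hφ P (p n) s
      have a2 := Lam_ch_le hφ P (w m) t
      have a3 : (s.length : ℤ) + t.length ≤ T := by
        rw [hs1, ht1]; exact_mod_cast h1
      linarith)
    (by
      rw [ch_append, ch_append, ch_append, hα2, hs2, hβ2, Fin.sum_univ_two]
      simp only [Matrix.cons_val_zero, Matrix.cons_val_one]
      abel)
    (by
      rw [Fin.sum_univ_two]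
      simp only [Matrix.cons_val_zero, Matrix.cons_val_one, List.length_append]
      omega)
    (by
      intro i j hij s hs s' hs'
      fin_cases i <;> fin_cases j
      · exact absurd rfl hij
      · exact hsep s hs s' hs'
      · show _ < wd π (w s) (p s')
        rw [wd_symm hg]; exact hsep s' hs' s hs
      · exact absurd rfl hij)
  rw [Fin.sum_univ_two] at key
  simp only [Matrix.cons_val_zero, Matrix.cons_val_one, Fintype.card_fin] at key
  omega

theorem threegon (hg : Gen π) {ρ C : ℕ} (hI : Iso π ρ C) (hρ : 0 < ρ) (hC : 0 < C)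
    {p w v : ℕ → G} {n m o T : ℕ} (hp : Geod π p n) (hw : Geod π w m) (hv : Geod π v o)
    (h1 : wd π (p n) (w 0) + wd π (w m) (v 0) + wd π (v o) (p 0) ≤ T)
    (hpw : ∀ s ≤ n, ∀ s' ≤ m, 2 * (4 * ρ * ρ * C + ρ) < wd π (p s) (w s'))
    (hpv : ∀ s ≤ n, ∀ s' ≤ o, 2 * (4 * ρ * ρ * C + ρ) < wd π (p s) (v s'))
    (hwv : ∀ s ≤ m, ∀ s' ≤ o, 2 * (4 * ρ * ρ * C + ρ) < wd π (w s) (v s')) :
    n ≤ 7 * T := by
  obtain ⟨α, hα1, hα2, hα3⟩ := hp.word hg
  obtain ⟨β, hβ1, hβ2, hβ3⟩ := hw.word hg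
  obtain ⟨γ, hγ1, hγ2, hγ3⟩ := hv.word hg
  obtain ⟨s, hs1, hs2⟩ := wd_spec hg (p n) (w 0)
  obtain ⟨t, ht1, ht2⟩ := wd_spec hg (w m) (v 0)
  obtain ⟨u, hu1, hu2⟩ := wd_spec hg (v o) (p 0)
  have key := poly hg hI hρ hC (ι := Fin 3) ![p, w, v] ![n, m, o]
    (by intro i; fin_cases i; exacts [hp, hw, hv]) ![α, β, γ]
    (by intro i; fin_cases i; exacts [⟨hα2, hα3⟩, ⟨hβ2, hβ3⟩, ⟨hγ2, hγ3⟩])
    (p 0) (α ++ (s ++ (β ++ (t ++ (γ ++ u)))))
    (by rw [ep_append, hα2, ep_append, hs2, ep_append, hβ2, ep_append, ht2, ep_append, hγ2, hu2]) T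
    (ch π (p n) s + ch π (w m) t + ch π (v o) u)
    (by
      intro φ hφ P
      rw [map_add, map_add]
      refine (abs_add_le _ _).trans ?_
      have a0 := abs_add_le (Lam π φ P (ch π (p n) s)) (Lam π φ P (ch π (w m) t))
      have a1 := Lam_ch_le hφ P (p n) s
      have a2 := Lam_ch_le hφ P (w m) t
      have a4 := Lam_ch_le hφ P (v o) u
      have a3 : (s.length : ℤ) + t.length + u.length ≤ T := by
        rw [hs1, ht1, hu1]; exact_mod_cast h1
      linarith)
    (by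
      rw [ch_append, ch_append, ch_append, ch_append, ch_append, hα2, hs2, hβ2, ht2, hγ2,
        Fin.sum_univ_three]
      simp only [Matrix.cons_val_zero, Matrix.cons_val_one, Matrix.cons_val]
      abel)
    (by
      rw [Fin.sum_univ_three]
      simp only [Matrix.cons_val_zero, Matrix.cons_val_one, Matrix.cons_val, List.length_append]
      omega)
    (by
      intro i j hij s hs s' hs'
      fin_cases i <;> fin_cases j
      · exact absurd rfl hij
      · exact hpw s hs s' hs'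
      · exact hpv s hs s' hs'
      · show _ < wd π (w s) (p s')
        rw [wd_symm hg]; exact hpw s' hs' s hs
      · exact absurd rfl hij
      · exact hwv s hs s' hs'
      · show _ < wd π (v s) (p s')
        rw [wd_symm hg]; exact hpv s' hs' s hs
      · show _ < wd π (v s) (w s')
        rw [wd_symm hg]; exact hwv s' hs' s hs
      · exact absurd rfl hij)
  rw [Fin.sum_univ_three] at key
  simp only [Matrix.cons_val_zero, Matrix.cons_val_one, Matrix.cons_val, Fintype.card_fin] at key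
  omega

theorem wye (hg : Gen π) {ρ C : ℕ} (hI : Iso π ρ C) (hρ : 0 < ρ) (hC : 0 < C)
    {p w v : ℕ → G} {n m o T K : ℕ} (hK : K = 2 * (4 * ρ * ρ * C + ρ))
    (hp : Geod π p n) (hw : Geod π w m) (hv : Geod π v o) (hz : w m = v o)
    (h1 : wd π (p n) (w 0) ≤ T) (h2 : wd π (p 0) (v 0) ≤ T)
    (hpw : ∀ s ≤ n, ∀ s' ≤ m, K < wd π (p s) (w s'))
    (hpv : ∀ s ≤ n, ∀ s' ≤ o, K < wd π (p s) (v s')) :
    n ≤ 7 * (2 * T + K + 1) := by
  have hex : ∃ N, ∃ a ≤ m, ∃ b ≤ o, a + b = N ∧ wd π (w a) (v b) ≤ K :=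
    ⟨m + o, m, le_rfl, o, le_rfl, rfl, by rw [hz, wd_self]; omega⟩
  obtain ⟨a, ha, b, hb, hab, hab'⟩ := Nat.find_spec hex
  have hmin : ∀ a' ≤ a, ∀ b' ≤ b, a' + b' < a + b → K < wd π (w a') (v b') := by
    intro a' ha' b' hb' hlt
    by_contra hcon
    push Not at hcon
    exact Nat.find_min hex (m := a' + b') (by omega)
      ⟨a', by omega, b', by omega, rfl, hcon⟩
  subst hK
  have hvr : Geod π (fun s => v (b - s)) b := hv.rev hg hb
  rcases Nat.eq_zero_or_pos a with h0 | h0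
  · subst h0
    have := bigon hg hI hρ hC (T := 2 * T + 2 * (4 * ρ * ρ * C + ρ)) hp hvr
      (by
        show wd π (p n) (v (b - 0)) + wd π (v (b - b)) (p 0) ≤ _
        simp only [Nat.sub_zero, Nat.sub_self]
        have e1 := wd_triangle hg (p n) (w 0) (v b)
        rw [wd_symm hg (v 0)]
        omega)
      (fun s hs s' hs' => hpv s hs (b - s') (by omega))
    omega
  · have hw' : Geod π (fun s => w (0 + s)) (a - 1) := hw.sub (by omega)
    have := threegon hg hI hρ hC (T := 2 * T + 2 * (4 * ρ * ρ * C + ρ) + 1) hp hw' hvr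
      (by
        show wd π (p n) (w (0 + 0)) + wd π (w (0 + (a - 1))) (v (b - 0)) + wd π (v (b - b)) (p 0) ≤ _
        simp only [Nat.sub_zero, Nat.sub_self, zero_add]
        have e1 := wd_triangle hg (w (a - 1)) (w a) (v b)
        have e2 := hw (a - 1) a (by omega) (by omega)
        rw [wd_symm hg (v 0)]
        omega)
      (fun s hs s' hs' => hpw s hs (0 + s') (by omega))
      (fun s hs s' hs' => hpv s hs (b - s') (by omega))
      (fun s hs s' hs' => hmin (0 + s) (by omega) (b - s') (by omega) (by omega))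
    omega

theorem same (hg : Gen π) {ρ C : ℕ} (hI : Iso π ρ C) (hρ : 0 < ρ) (hC : 0 < C)
    {p w : ℕ → G} {n m T a b K : ℕ} (hK : K = 2 * (4 * ρ * ρ * C + ρ))
    (hp : Geod π p n) (hw : Geod π w m) (ha : a ≤ m) (hb : b ≤ m)
    (h1 : wd π (p n) (w b) ≤ T) (h2 : wd π (p 0) (w a) ≤ T)
    (hpw : ∀ s ≤ n, ∀ s' ≤ m, K < wd π (p s) (w s')) :
    n ≤ 10 * T := by
  subst hK
  rw [wd_symm hg] at h2
  rcases le_total a b with hab | hab
  · have h3 : Geod π (fun s => w (b - s)) (b - a) := by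
      intro i j hij hj
      show wd π (w (b - i)) (w (b - j)) = j - i
      rw [wd_symm hg, hw (b - j) (b - i) (by omega) (by omega)]
      omega
    have := bigon hg hI hρ hC (T := 2 * T) hp h3
      (by
        show wd π (p n) (w (b - 0)) + wd π (w (b - (b - a))) (p 0) ≤ _
        have : b - (b - a) = a := by omega
        rw [this, Nat.sub_zero]; omega)
      (fun s hs s' hs' => hpw s hs (b - s') (by omega))
    omega
  · have h3 : Geod π (fun s => w (b + s)) (a - b) := hw.sub (by omega)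
    have := bigon hg hI hρ hC (T := 2 * T) hp h3
      (by
        show wd π (p n) (w (b + 0)) + wd π (w (b + (a - b))) (p 0) ≤ _
        have : b + (a - b) = a := by omega
        rw [this, Nat.add_zero]; omega)
      (fun s hs s' hs' => hpw s hs (b + s') (by omega))
    omega

/-- the constant of thinness -/
def dl (ρ C : ℕ) : ℕ := 22 * (2 * (4 * ρ * ρ * C + ρ) + 1)

theorem thin (hg : Gen π) {ρ C : ℕ} (hI : Iso π ρ C) (hρ : 0 < ρ) (hC : 0 < C)
    {p q r : ℕ → G} {n m o : ℕ} (hp : Geod π p n) (hq : Geod π q m) (hr : Geod π r o)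
    (h0 : p 0 = r 0) (h1 : p n = q 0) (h2 : q m = r o) {t : ℕ} (ht : t ≤ n) :
    (∃ s ≤ m, wd π (p t) (q s) ≤ dl ρ C) ∨ (∃ s ≤ o, wd π (p t) (r s) ≤ dl ρ C) := by
  obtain ⟨K, hK⟩ : ∃ K, K = 2 * (4 * ρ * ρ * C + ρ) := ⟨_, rfl⟩
  have hdl : dl ρ C = 22 * (K + 1) := by rw [hK]; rfl
  rw [hdl]
  set near : ℕ → Prop := fun s => (∃ j ≤ m, wd π (p s) (q j) ≤ K) ∨ (∃ j ≤ o, wd π (p s) (r j) ≤ K)
    with hnear
  by_cases hnt : near t
  · rcases hnt with ⟨j, hj, hj'⟩ | ⟨j, hj, hj'⟩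
    · exact Or.inl ⟨j, hj, by omega⟩
    · exact Or.inr ⟨j, hj, by omega⟩
  have hn0 : near 0 := Or.inr ⟨0, by omega, by rw [h0, wd_self]; omega⟩
  have hnn : near n := Or.inl ⟨0, by omega, by rw [h1, wd_self]; omega⟩
  set a := Nat.findGreatest near t with ha
  have ha1 : near a := Nat.findGreatest_spec (P := near) (Nat.zero_le t) hn0
  have ha2 : a ≤ t := Nat.findGreatest_le t
  have ha3 : a < t := lt_of_le_of_ne ha2 (fun h => hnt (h ▸ ha1))
  have hex : ∃ s, t ≤ s ∧ near s := ⟨n, ht, hnn⟩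
  set b := Nat.find hex with hb
  have hb1 : t ≤ b ∧ near b := Nat.find_spec hex
  have hb2 : b ≤ n := Nat.find_min' hex ⟨ht, hnn⟩
  have hb3 : t < b := lt_of_le_of_ne hb1.1 (fun h => hnt (h ▸ hb1.2))
  have hfar : ∀ s, a < s → s < b → ¬ near s := by
    intro s hs hs'
    rcases le_total s t with h | h
    · exact Nat.findGreatest_is_greatest hs h
    · intro hc
      exact Nat.find_min hex hs' ⟨h, hc⟩
  have hseg : Geod π (fun s => p (a + 1 + s)) (b - a - 2) := hp.sub (by omega)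
  have hfq : ∀ s ≤ b - a - 2, ∀ s' ≤ m, K < wd π (p (a + 1 + s)) (q s') := by
    intro s hs s' hs'
    by_contra hc
    exact hfar (a + 1 + s) (by omega) (by omega) (Or.inl ⟨s', hs', by omega⟩)
  have hfr : ∀ s ≤ b - a - 2, ∀ s' ≤ o, K < wd π (p (a + 1 + s)) (r s') := by
    intro s hs s' hs'
    by_contra hc
    exact hfar (a + 1 + s) (by omega) (by omega) (Or.inr ⟨s', hs', by omega⟩)
  have ea : a + 1 + (b - a - 2) = b - 1 := by omega
  have d1 : ∀ v, wd π (p b) v ≤ K → wd π (p (a + 1 + (b - a - 2))) v ≤ K + 1 := by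
    intro v hv
    have e1 := wd_triangle hg (p (b - 1)) (p b) v
    have e2 := hp (b - 1) b (by omega) hb2
    rw [ea]
    omega
  have d0 : ∀ v, wd π (p a) v ≤ K → wd π (p (a + 1 + 0)) v ≤ K + 1 := by
    intro v hv
    have e1 := wd_triangle hg (p (a + 1)) (p a) v
    have e2 := hp a (a + 1) (by omega) (by omega)
    rw [wd_symm hg] at e2
    rw [Nat.add_zero]
    omega
  have dt : ∀ v, wd π (p a) v ≤ K → b - a - 2 ≤ 21 * (K + 1) → wd π (p t) v ≤ 22 * (K + 1) := by
    intro v hv hle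
    have e1 := wd_triangle hg (p t) (p a) v
    have e2 := hp a t (by omega) (by omega)
    rw [wd_symm hg] at e2
    omega
  rcases ha1 with ⟨i, hi, hi'⟩ | ⟨i, hi, hi'⟩ <;> rcases hb1.2 with ⟨j, hj, hj'⟩ | ⟨j, hj, hj'⟩
  · left
    refine ⟨i, hi, dt _ hi' ?_⟩
    have := same hg hI hρ hC (T := K + 1) hK hseg hq hi hj (d1 _ hj') (d0 _ hi') hfq
    omega
  · left
    refine ⟨i, hi, dt _ hi' ?_⟩
    have := wye hg hI hρ hC (T := K + 1) (w := fun s => r (j + s)) (v := fun s => q (i + s))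
      (m := o - j) (o := m - i) hK hseg (hr.sub (by omega)) (hq.sub (by omega))
      (by
        show r (j + (o - j)) = q (i + (m - i))
        rw [Nat.add_sub_cancel' hj, Nat.add_sub_cancel' hi, h2])
      (by
        show wd π _ (r (j + 0)) ≤ _
        exact d1 _ hj')
      (by
        show wd π _ (q (i + 0)) ≤ _
        exact d0 _ hi')
      (fun s hs s' hs' => hfr s hs (j + s') (by omega))
      (fun s hs s' hs' => hfq s hs (i + s') (by omega))
    omega
  · right
    refine ⟨i, hi, dt _ hi' ?_⟩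
    have := wye hg hI hρ hC (T := K + 1) (w := fun s => q (j + s)) (v := fun s => r (i + s))
      (m := m - j) (o := o - i) hK hseg (hq.sub (by omega)) (hr.sub (by omega))
      (by
        show q (j + (m - j)) = r (i + (o - i))
        rw [Nat.add_sub_cancel' hj, Nat.add_sub_cancel' hi, h2])
      (by
        show wd π _ (q (j + 0)) ≤ _
        exact d1 _ hj')
      (by
        show wd π _ (r (i + 0)) ≤ _
        exact d0 _ hi')
      (fun s hs s' hs' => hfq s hs (j + s') (by omega))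
      (fun s hs s' hs' => hfr s hs (i + s') (by omega))
    omega
  · right
    refine ⟨i, hi, dt _ hi' ?_⟩
    have := same hg hI hρ hC (T := K + 1) hK hseg hr hi hj (d1 _ hj') (d0 _ hi') hfr
    omega

end Vale.Agent.P186.Hyp
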